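import Vale.Agent.P216.H467E.Two
import Vale.Agent.P216.B609.Sheet

/-!
# The instance of `GSys.Two` for a closed manifold (trivial holonomy)
-/

open Set Topology
open Vale.Agent.P216.H288 Vale.Agent.P216.H494 Vale.Agent.P216.L250
open scoped ComplexConjugate

namespace Vale.Agent.P216.H467E

variable {M : Type} [MetricSpace M]

/-- Double iteration on `LM M × ℂ`, the second component unchanged. -/
noncomputable def dbl (q : LM M × ℂ) : LM M × ℂ := (iter 2 q.1, q.2)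

theorem isometry_dbl : Isometry (dbl (M := M)) :=
  Isometry.of_dist_eq fun q q' => by
    rw [Prod.dist_eq, Prod.dist_eq]
    exact congrArg₂ max ((isometry_iter two_pos).dist_eq _ _) rfl

theorem mem_triv {s : ℝ} {q : LM M × ℂ} :
    q ∈ Xt (Hol.triv : Hol M) s ↔ q.1 ∈ XE M s ∧ q.2 ^ 2 = 1 := Iff.rfl

theorem dbl_mem_iff {s : ℝ} {q : LM M × ℂ} :
    dbl q ∈ Xt (Hol.triv : Hol M) (2 * s) ↔ q ∈ Xt (Hol.triv : Hol M) s := by
  rw [mem_triv, mem_triv]
  refine and_congr ⟨fun h => ?_, fun h => ?_⟩ Iff.rfl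
  · refine mem_of_iter_mem two_pos ?_
    exact_mod_cast h
  · have := iter_mem h 2
    exact_mod_cast this

theorem dbl_mem_cov {e a : ℝ} (G : GeoList M) {q : LM M × ℂ} :
    dbl q ∈ Kt G (Hol.triv : Hol M) e (2 * a) ↔ q ∈ Kt G (Hol.triv : Hol M) e a := by
  refine and_congr ⟨?_, fun h => ?_⟩ Iff.rfl
  · rintro ⟨j, b, h⟩
    refine ⟨j, b, fun t => ?_⟩
    have h1 := h (t / 2)
    change fn (iter 2 q.1) (t / 2) = _ at h1
    rw [fn_iter] at h1
    rw [show ((2 : ℕ) : ℝ) * (t / 2) = t by push_cast; ring,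
      show e * (2 * a) * (t / 2) + b = e * a * t + b by ring] at h1
    exact h1
  · have := iter_mem_KK h 2
    exact_mod_cast this

/-- **The instance.** -/
noncomputable def two0 [CompactSpace M] (G : GeoList M) (hD : DescentStmt (Hol.triv : Hol M) G)
    {ρ : ℝ} (hρ : 0 < ρ) (h : LS.UniqSeg M ρ) : GSys.Two (mkGSys Hol.triv G hD) where
  ψ := dbl
  ψ_cont _ _ := isometry_dbl.continuous.continuousOn
  ψ_inj _ _ := isometry_dbl.injective.injOn
  ψ_image s hs := by
    change dbl '' XX Hol.triv s = {x ∈ XX Hol.triv (2 * s) | rotC (1 / (2 : ℕ) : ℝ) x = x}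
    rw [XX_eq hs, XX_eq (by positivity)]
    ext q
    constructor
    · rintro ⟨q, hq, rfl⟩
      refine ⟨dbl_mem_iff.2 hq, ?_⟩
      exact Prod.ext (rot_iter_self two_pos q.1) rfl
    · rintro ⟨h1, h2⟩
      have h3 : rot (1 / (2 : ℕ) : ℝ) q.1 = q.1 := congrArg Prod.fst h2
      have h4 : dbl (rootL 2 q.1, q.2) = q := Prod.ext (iter_rootL two_pos h3) rfl
      exact ⟨(rootL 2 q.1, q.2), dbl_mem_iff.1 (h4.symm ▸ h1), h4⟩
  ψ_τ _ := rfl
  ψ_θ q := Prod.ext (rev_iter 2 q.1).symm rfl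
  ψ_rot q := by
    change rotC (1 / (4 : ℕ) : ℝ) (dbl q) = dbl (rotC (1 / (2 : ℕ) : ℝ) q)
    refine Prod.ext ?_ rfl
    change rot (1 / (4 : ℕ) : ℝ) (iter 2 q.1) = iter 2 (rot (1 / (2 : ℕ) : ℝ) q.1)
    rw [rot_iter]
    congr 2
    norm_num
  ψ_K1 _ _ _ _ := dbl_mem_cov G
  ψ_K2 _ _ _ _ := dbl_mem_cov G
  rot42 q := by
    change rotC (1 / (4 : ℕ) : ℝ) (rotC (1 / (4 : ℕ) : ℝ) q) = rotC (1 / (2 : ℕ) : ℝ) q
    rw [rotC_rotC]
    congr 1
    norm_num
  K_free a ha hc x hx := by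
    rcases hx with hx | hx
    · exact not_fixed_Kt Hol.triv (Or.inl rfl) ha two_pos (by exact_mod_cast hc) hx
    · exact not_fixed_Kt Hol.triv (Or.inr rfl) ha two_pos (by exact_mod_cast hc) hx
  descent := by
    intro T hT
    obtain ⟨D, h1, h2, h3, h4, h5, h6, h7, h8⟩ :=
      LS.exists_descent G Hol.triv hρ h (p := 4) (by norm_num) hT.le
    refine ⟨D, ?_, fun x _ => h2 x, ?_, fun u _ x _ => h4 u x, ?_, ?_, ?_, ?_⟩
    · change ContinuousOn _ (Icc (0 : ℝ) 1 ×ˢ XX Hol.triv T)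
      rw [XX_eq hT.le]; exact h1
    · intro u hu s hs x hx
      exact h3 _ (le_max_right _ _) (max_le hs hT.le) u hu x hx
    · intro u hu x hx
      change x ∈ XX Hol.triv T at hx
      rw [XX_eq hT.le] at hx
      exact h5 u hu x hx
    · intro x hx
      change x ∈ XX Hol.triv T at hx
      rw [XX_eq hT.le] at hx
      exact h6 x hx
    · intro u hu a ha haT
      refine ⟨fun x hx => ?_, fun x hx => ?_⟩
      · rw [h7 1 (Or.inl rfl) a ha haT x hx u hu]; exact hx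
      · rw [h7 (-1) (Or.inr rfl) a ha haT x hx u hu]; exact hx
    · intro a ha haT U hU hK
      obtain ⟨ε, hε, hεa, _, h⟩ := h8 a ha haT U hU (subset_union_left.trans hK)
        (subset_union_right.trans hK)
      refine ⟨ε, hε, fun x hx hxU => ?_⟩
      change x ∈ XX Hol.triv (a + ε) at hx
      change D 1 x ∈ XX Hol.triv (a - ε)
      rw [XX_eq (by linarith)] at hx ⊢
      exact h x hx hxU

end Vale.Agent.P216.H467E
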