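import Vale.Agent.P216.Spine.Contract

/-!
# The extra geometric facts at `p = 2` (P216, Theorem C)

`GSys.Two S`: for the group `Z/4` (rotation by `1/4`), whose fixed points under the rotation by
`1/2` in `X (2 s)` are the double covers (`ψ`) of the points of `X s`.  All of this is true for the
`GSys` of a closed manifold with the trivial holonomy (`ψ (c, z) = (c ^ 2, z)`).
-/

open Set Topology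

namespace Vale.Agent.P216

variable {Λ : Type} [PseudoMetricSpace Λ]

/-- The extra data at `p = 2`. -/
structure GSys.Two (S : GSys Λ) where
  /-- double iteration -/
  ψ : Λ → Λ
  ψ_cont : ∀ s, 0 ≤ s → ContinuousOn ψ (S.X s)
  ψ_inj : ∀ s, 0 ≤ s → InjOn ψ (S.X s)
  ψ_image : ∀ s, 0 ≤ s → ψ '' S.X s = {x ∈ S.X (2 * s) | S.rot 2 x = x}
  ψ_τ : ∀ x, ψ (S.τ x) = S.τ (ψ x)
  ψ_θ : ∀ x, ψ (S.θ x) = S.θ (ψ x)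
  ψ_rot : ∀ x, S.rot 4 (ψ x) = ψ (S.rot 2 x)
  ψ_K1 : ∀ a, 0 < a → ∀ x ∈ S.X a, ψ x ∈ S.K1 (2 * a) ↔ x ∈ S.K1 a
  ψ_K2 : ∀ a, 0 < a → ∀ x ∈ S.X a, ψ x ∈ S.K2 (2 * a) ↔ x ∈ S.K2 a
  rot42 : ∀ x, S.rot 4 (S.rot 4 x) = S.rot 2 x
  K_free : ∀ a, 0 < a → a / 2 ∉ AS.Crit S.ℓ → ∀ x ∈ S.K1 a ∪ S.K2 a, S.rot 2 x ≠ x
  descent : ∀ T, 0 < T → ∃ D : ℝ → Λ → Λ,
    ContinuousOn (fun q : ℝ × Λ => D q.1 q.2) (Icc (0 : ℝ) 1 ×ˢ S.X T) ∧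
    (∀ x ∈ S.X T, D 0 x = x) ∧
    (∀ u ∈ Icc (0 : ℝ) 1, ∀ s ≤ T, MapsTo (D u) (S.X s) (S.X s)) ∧
    (∀ u ∈ Icc (0 : ℝ) 1, ∀ x ∈ S.X T, D u (S.τ x) = S.τ (D u x)) ∧
    (∀ u ∈ Icc (0 : ℝ) 1, ∀ x ∈ S.X T, D u (S.rot 4 x) = S.rot 4 (D u x)) ∧
    (∀ x ∈ S.X T, D 1 (S.θ x) = S.θ (D 1 x)) ∧
    (∀ u ∈ Icc (0 : ℝ) 1, ∀ a, 0 < a → a ≤ T →
      MapsTo (D u) (S.K1 a) (S.K1 a) ∧ MapsTo (D u) (S.K2 a) (S.K2 a)) ∧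
    (∀ a, 0 < a → a < T → ∀ U : Set Λ, IsOpen U → S.K1 a ∪ S.K2 a ⊆ U →
      ∃ ε > 0, ∀ x ∈ S.X (a + ε), x ∉ U → D 1 x ∈ S.X (a - ε))

end Vale.Agent.P216
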