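import Vale.Agent.P216.H467.CrossBal

/-!
# Cut operators on the cohomology of a pair inside a world (P216, Theorem C, block E1)

`IsCut a W X A D N₁ N₂`: the descent `D` and the neighbourhoods `N₁`, `N₂` define the projection
`eW` on the cohomology `H (Zr W A) (Zr W X)` of the pair `(X, A)` in the world `W`.
`pull_eW`: naturality and independence of all choices in one statement.
-/

open Set Matrix

namespace Vale.Agent.P216.H467E

open AS

variable {E E' : Type} [PseudoMetricSpace E] [PseudoMetricSpace E'] {k : Type} [Field k] {I : Type}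

/-- **Contiguity** in a world `W`. -/
theorem contiguousW {a : I → E → E} {a' : I → E' → E'} {χ : I → k} {W X A : Set E}
    {W' X' A' : Set E'} {f₀ f₁ : E → E'} {n : ℕ} (h₀ : IsMap a a' W W' f₀)
    (h₁ : IsMap a a' W W' f₁) (hA : A ⊆ X) (hX₀ : MapsTo f₀ X X') (hX₁ : MapsTo f₁ X X')
    (hf₀ : MapsTo f₀ A A') (hf₁ : MapsTo f₁ A A') {c : (Fin (n + 1) → E') → k}
    (hc : Eqv a' χ W' c) {ε δ : ℝ} (hδ : 0 < δ) (h1 : ∀ x, Sm X' ε x → P265.AS.d c x = 0)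
    (h2 : ∀ x, Sm A' ε x → c x = 0) (hcl : Close X f₀ f₁ δ ε) :
    pbK k f₁ n c - pbK k f₀ n c ∈ Bc (Zr a χ W A) (Zr a χ W X) n := by
  have hAcl : Close A f₀ f₁ δ ε := fun x hx y hy => hcl x (hA hx) y (hA hy)
  have key : Van X (P265.AS.prism f₀ f₁ (P265.AS.d c)) := ⟨δ, hδ, fun x hx =>
    P265.AS.prism_eq_zero _ _ fun y hy => h1 y (hcl.sm hX₀ hX₁ hx hy)⟩
  have key' : Eqv a χ W (P265.AS.prism f₀ f₁ (P265.AS.d c)) := prism_eqv h₀ h₁ hc.d
  have hd : ∀ x, P265.AS.d (P265.AS.prism f₀ f₁ c) x + P265.AS.prism f₀ f₁ (P265.AS.d c) x =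
      c (f₁ ∘ x) - c (f₀ ∘ x) := P265.AS.d_prism f₀ f₁ c
  cases n with
  | zero =>
    rw [mem_Bc_zero]
    have : pbK k f₁ 0 c - pbK k f₀ 0 c = P265.AS.prism f₀ f₁ (P265.AS.d c) := by
      funext x
      have h3 := hd x
      have h4 : P265.AS.d (P265.AS.prism f₀ f₁ c) x = 0 := rfl
      rw [h4, zero_add] at h3
      exact h3.symm
    rw [this]
    exact ⟨key', key⟩
  | succ n =>
    rw [mem_Bc_succ]
    refine ⟨P265.AS.prism f₀ f₁ c, ⟨prism_eqv h₀ h₁ hc, δ, hδ, fun x hx =>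
      P265.AS.prism_eq_zero _ _ fun y hy => h2 y (hAcl.sm hf₀ hf₁ hx hy)⟩, ?_⟩
    have : pbK k f₁ (n + 1) c - pbK k f₀ (n + 1) c -
        (ASK E k).d n (P265.AS.prism f₀ f₁ c) = P265.AS.prism f₀ f₁ (P265.AS.d c) := by
      funext x
      have h3 := hd x
      change c (f₁ ∘ x) - c (f₀ ∘ x) - P265.AS.d (P265.AS.prism f₀ f₁ c) x = _
      rw [← h3, add_sub_cancel_left]
    rw [this]
    exact ⟨key', key⟩

/-- **Homotopy invariance** in a world `W`. -/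
theorem homotopyW {a : I → E → E} {a' : I → E' → E'} {χ : I → k} {W X A : Set E}
    {W' X' A' : Set E'} {D : ℝ → E → E'} {n : ℕ} (h : IsHtpy a a' W W' D) (hX : X ⊆ W)
    (hA : A ⊆ X) (hDX : ∀ s ∈ Icc (0 : ℝ) 1, MapsTo (D s) X X')
    (hDA : ∀ s ∈ Icc (0 : ℝ) 1, MapsTo (D s) A A') {c : (Fin (n + 1) → E') → k}
    (hc : c ∈ Zc (Zr a' χ W' A') (Zr a' χ W' X') n) :
    pbK k (D 1) n c - pbK k (D 0) n c ∈ Bc (Zr a χ W A) (Zr a χ W X) n := by
  obtain ⟨⟨hcE, ε₂, hε₂, h2⟩, -, ε₁, hε₁, h1⟩ := mem_Zc.1 hc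
  obtain ⟨δ, hδ, h3⟩ := h.uc (min ε₁ ε₂) (lt_min hε₁ hε₂)
  have key : ∀ s ∈ Icc (0 : ℝ) 1, ∀ t ∈ Icc (0 : ℝ) 1, |s - t| < δ →
      pbK k (D t) n c - pbK k (D s) n c ∈ Bc (Zr a χ W A) (Zr a χ W X) n := by
    intro s hs t ht hst
    refine contiguousW (ε := min ε₁ ε₂) (h.isMap hs) (h.isMap ht) hA (hDX s hs) (hDX t ht)
      (hDA s hs) (hDA t ht) hcE hδ
      (fun x hx => h1 x (hx.mono le_rfl (min_le_left _ _)))
      (fun x hx => h2 x (hx.mono le_rfl (min_le_right _ _))) ?_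
    exact fun x hx y hy hxy => ⟨h3 s hs s hs x (hX hx) y (hX hy) (by simpa using hδ) hxy,
      h3 s hs t ht x (hX hx) y (hX hy) hst hxy,
      h3 t ht t ht x (hX hx) y (hX hy) (by simpa using hδ) hxy⟩
  obtain ⟨N, hN⟩ := exists_nat_gt (1 / δ)
  have hN0 : (0 : ℝ) < N := lt_trans (by positivity) hN
  have hN' : 1 / (N : ℝ) < δ := by
    rw [div_lt_iff₀ hN0]
    rw [div_lt_iff₀ hδ] at hN
    linarith [mul_comm (N : ℝ) δ]
  have hmem : ∀ i : ℕ, i ≤ N → (i : ℝ) / N ∈ Icc (0 : ℝ) 1 := fun i hi =>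
    ⟨by positivity, by rw [div_le_one hN0]; exact_mod_cast hi⟩
  have ind : ∀ i : ℕ, i ≤ N →
      pbK k (D ((i : ℝ) / N)) n c - pbK k (D 0) n c ∈ Bc (Zr a χ W A) (Zr a χ W X) n := by
    intro i
    induction i with
    | zero =>
      intro _
      rw [Nat.cast_zero, zero_div, sub_self]
      exact Submodule.zero_mem _
    | succ i ih =>
      intro hi
      have e1 := ih (by omega)
      have e2 := key _ (hmem i (by omega)) _ (hmem (i + 1) hi) (by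
        have : (i : ℝ) / N - ((i + 1 : ℕ) : ℝ) / N = -(1 / N) := by
          push_cast; field_simp; ring
        rw [this, abs_neg, abs_of_pos (by positivity)]
        exact hN')
      have := Submodule.add_mem _ e1 e2
      rwa [sub_add_sub_cancel'] at this
  have := ind N le_rfl
  rwa [div_self hN0.ne'] at this

/-- A cut datum for the pair `(X, A)` in the world `W`. -/
structure IsCut (a : I → E → E) (W X A : Set E) (D : ℝ → E → E) (N₁ N₂ : Set E) : Prop where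
  subX : X ⊆ W
  subA : A ⊆ X
  htpy : IsHtpy a a W W D
  D_zero : ∀ x ∈ W, D 0 x = x
  D_X : ∀ u ∈ Icc (0 : ℝ) 1, MapsTo (D u) X X
  D_A : ∀ u ∈ Icc (0 : ℝ) 1, MapsTo (D u) A A
  N₁_a : ∀ i, ∀ x ∈ W, (a i x ∈ N₁ ↔ x ∈ N₁)
  N₂_a : ∀ i, ∀ x ∈ W, (a i x ∈ N₂ ↔ x ∈ N₂)
  disj : ∀ x ∈ X, x ∈ N₁ → x ∉ N₂
  cover : ∃ δ > 0, ∀ z ∈ X, D 1 z ∉ A →
    (∀ x ∈ X, dist x z < δ → x ∈ N₁) ∨ (∀ x ∈ X, dist x z < δ → x ∈ N₂)

namespace IsCut

variable {a : I → E → E} {χ : I → k} {W X A : Set E} {D : ℝ → E → E} {N₁ N₂ : Set E}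

theorem symm (h : IsCut a W X A D N₁ N₂) : IsCut a W X A D N₂ N₁ where
  subX := h.subX
  subA := h.subA
  htpy := h.htpy
  D_zero := h.D_zero
  D_X := h.D_X
  D_A := h.D_A
  N₁_a := h.N₂_a
  N₂_a := h.N₁_a
  disj x hx h1 h2 := h.disj x hx h2 h1
  cover := by
    obtain ⟨δ, hδ, hc⟩ := h.cover
    exact ⟨δ, hδ, fun z hz hz' => (hc z hz hz').symm⟩

theorem D_one_X (h : IsCut a W X A D N₁ N₂) : MapsTo (D 1) X X := h.D_X 1 ⟨zero_le_one, le_rfl⟩

theorem D_one_A (h : IsCut a W X A D N₁ N₂) : MapsTo (D 1) A A := h.D_A 1 ⟨zero_le_one, le_rfl⟩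

/-- Two cochains which agree on the tuples of `X`. -/
theorem sub_mem_ZrW {n : ℕ} {c c' : (ASK E k).K n} (hc : Eqv a χ W c) (hc' : Eqv a χ W c')
    (h : ∀ x : Fin (n + 1) → E, (∀ i, x i ∈ X) → c x = c' x) : c - c' ∈ Zr a χ W X n := by
  refine ⟨hc.sub hc', 1, one_pos, fun x hx => ?_⟩
  change c x - c' x = 0
  rw [h x hx.1, sub_self]

theorem isMor (h : IsCut a W X A D N₁ N₂) :
    IsMor (Zr a χ W A) (Zr a χ W X) (Zr a χ W A) (Zr a χ W X) (cutK k N₁ (D 1)) where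
  mapS hc := ⟨cutK_eqv h.htpy.one h.N₁_a hc.1,
    cutK_van h.htpy.one (h.subA.trans h.subX) h.D_one_A hc.2⟩
  mapT hc := ⟨cutK_eqv h.htpy.one h.N₁_a hc.1, cutK_van h.htpy.one h.subX h.D_one_X hc.2⟩
  comm {n c} hc := by
    obtain ⟨hcE, ε, hε, h1⟩ := hc
    obtain ⟨η, hη, h2⟩ := h.htpy.one.uc ε hε
    obtain ⟨δ, hδ, hcov⟩ := h.cover
    have hcut : ∀ x ∈ X, ∀ y ∈ X, ∀ z ∈ X, dist z x < δ → dist z y < δ →
        x ∈ N₁ → y ∉ N₁ → D 1 z ∈ A := by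
      intro x hx y hy z hz hzx hzy h3 h4
      by_contra h5
      rcases hcov z hz h5 with h' | h'
      · exact h4 (h' y hy (by rwa [dist_comm]))
      · exact h.disj x hx h3 (h' x hx (by rwa [dist_comm]))
    refine ⟨?_, min δ η, lt_min hδ hη, fun x hx => ?_⟩
    · have e1 : Eqv a χ W ((ASK E k).d n (cutK k N₁ (D 1) n c)) :=
        (cutK_eqv h.htpy.one h.N₁_a hcE).d
      have e2 : Eqv a χ W (cutK k N₁ (D 1) (n + 1) ((ASK E k).d n c)) :=
        cutK_eqv h.htpy.one h.N₁_a hcE.d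
      intro i x hx
      have h3 := e1 i x hx
      have h4 := e2 i x hx
      change _ - _ = χ i * (_ - _)
      rw [h3, h4, mul_sub]
    · change (ASK E k).d n (cutK k N₁ (D 1) n c) x -
        cutK k N₁ (D 1) (n + 1) ((ASK E k).d n c) x = 0
      rw [d_cutK, sub_self]
      have hd : ∀ i j, dist (x i) (x j) < δ := fun i j => (hx.2 i j).trans_le (min_le_left _ _)
      by_cases hiff : (x 0 ∈ N₁ ↔ x 1 ∈ N₁)
      · exact Or.inl hiff
      · refine Or.inr (h1 _ ⟨fun j => ?_, fun i j => ?_⟩)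
        · change D 1 (x j.succ) ∈ A
          by_cases h0 : x 0 ∈ N₁
          · exact hcut (x 0) (hx.1 0) (x 1) (hx.1 1) _ (hx.1 _) (hd _ _) (hd _ _) h0
              fun h1 => hiff ⟨fun _ => h1, fun _ => h0⟩
          · refine hcut (x 1) (hx.1 1) (x 0) (hx.1 0) _ (hx.1 _) (hd _ _) (hd _ _) ?_ h0
            by_contra h1
            exact hiff ⟨fun h => absurd h h0, fun h => absurd h h1⟩
        · exact h2 _ (h.subX (hx.1 _)) _ (h.subX (hx.1 _))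
            ((hx.2 _ _).trans_le (min_le_right _ _))

/-- The projection. -/
noncomputable def eW (χ : I → k) (h : IsCut a W X A D N₁ N₂) (n : ℕ) :
    H (Zr a χ W A) (Zr a χ W X) n →ₗ[k] H (Zr a χ W A) (Zr a χ W X) n :=
  Hmap h.isMor n

theorem eW_mk (h : IsCut a W X A D N₁ N₂) {n : ℕ} {c : (ASK E k).K n}
    (hc : c ∈ Zc (Zr a χ W A) (Zr a χ W X) n) :
    h.eW χ n (H.mk c hc) = H.mk (cutK k N₁ (D 1) n c) (h.isMor.mapZ hc) := rfl

/-- The homotopy formula in a world. -/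
theorem homotopy_memW (h : IsCut a W X A D N₁ N₂) {n : ℕ} {c : (ASK E k).K n}
    (hc : c ∈ Zc (Zr a χ W A) (Zr a χ W X) n) :
    pbK k (D 1) n c - pbK k (D 0) n c ∈ Bc (Zr a χ W A) (Zr a χ W X) n :=
  homotopyW h.htpy h.subX h.subA h.D_X h.D_A hc

theorem eW_add (h : IsCut a W X A D N₁ N₂) (n : ℕ) (y : H (Zr a χ W A) (Zr a χ W X) n) :
    h.eW χ n y + h.symm.eW χ n y = y := by
  obtain ⟨c, hc, rfl⟩ := H.exists_mk y
  rw [eW_mk, eW_mk, ← H.mk_add, H.mk_eq_mk]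
  have h1 := h.homotopy_memW hc
  have h2 : pbK k (D 0) n c - c ∈ Zr a χ W X n := by
    refine sub_mem_ZrW (h.htpy.zero.pb_eqv (mem_Zc.1 hc).1.1) (mem_Zc.1 hc).1.1 fun x hx => ?_
    change c (D 0 ∘ x) = c x
    congr 1
    funext i
    exact h.D_zero _ (h.subX (hx i))
  have h3 : cutK k N₁ (D 1) n c + cutK k N₂ (D 1) n c - pbK k (D 1) n c ∈ Zr a χ W X n := by
    obtain ⟨hcE, ε, hε, h4⟩ := (mem_Zc.1 hc).1
    obtain ⟨η, hη, h5⟩ := h.htpy.one.uc ε hε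
    obtain ⟨δ, hδ, hcov⟩ := h.cover
    refine ⟨((h.isMor.mapS (mem_Zc.1 hc).1).1.add (h.symm.isMor.mapS (mem_Zc.1 hc).1).1).sub
      (h.htpy.one.pb_eqv hcE), min δ η, lt_min hδ hη, fun x hx => ?_⟩
    change cutK k N₁ (D 1) n c x + cutK k N₂ (D 1) n c x - c (D 1 ∘ x) = 0
    by_cases hx1 : x 0 ∈ N₁
    · rw [cutK_of_mem hx1, cutK_of_notMem (h.disj _ (hx.1 0) hx1), add_zero, sub_self]
    · by_cases hx2 : x 0 ∈ N₂
      · rw [cutK_of_mem hx2, cutK_of_notMem hx1, zero_add, sub_self]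
      · rw [cutK_of_notMem hx1, cutK_of_notMem hx2, zero_add, zero_sub, neg_eq_zero]
        refine h4 _ ⟨fun j => ?_, fun i j => ?_⟩
        · by_contra h
          rcases hcov (x j) (hx.1 j) h with h' | h'
          · exact hx1 (h' _ (hx.1 0) ((hx.2 0 j).trans_le (min_le_left _ _)))
          · exact hx2 (h' _ (hx.1 0) ((hx.2 0 j).trans_le (min_le_left _ _)))
        · exact h5 _ (h.subX (hx.1 i)) _ (h.subX (hx.1 j))
            ((hx.2 i j).trans_le (min_le_right _ _))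
  have h6 := Submodule.add_mem _ (Submodule.add_mem _ (T_le_Bc _ _ _ h3) h1) (T_le_Bc _ _ _ h2)
  rw [sub_add_sub_cancel, sub_add_sub_cancel] at h6
  exact h6

section Pull

variable {a' : I → E' → E'} {W' X' A' : Set E'} {D' : ℝ → E' → E'} {N₁' N₂' : Set E'} {f : E' → E}

/-- Pull back of pairs in worlds. -/
noncomputable def pullW (χ : I → k) (hf : IsMap a' a W' W f) (hX : X' ⊆ W') (hfX : MapsTo f X' X)
    (hA : A' ⊆ W') (hfA : MapsTo f A' A) (n : ℕ) :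
    H (Zr a χ W A) (Zr a χ W X) n →ₗ[k] H (Zr a' χ W' A') (Zr a' χ W' X') n :=
  Hmap (hf.isMor_Zr hX hfX hA hfA) n

theorem pullW_mk (hf : IsMap a' a W' W f) (hX : X' ⊆ W') (hfX : MapsTo f X' X)
    (hA : A' ⊆ W') (hfA : MapsTo f A' A) {n : ℕ} {c : (ASK E k).K n}
    (hc : c ∈ Zc (Zr a χ W A) (Zr a χ W X) n) :
    pullW χ hf hX hfX hA hfA n (H.mk c hc) =
      H.mk (pbK k f n c) ((hf.isMor_Zr hX hfX hA hfA).mapZ hc) := rfl

theorem eW_pullW_eW (h : IsCut a W X A D N₁ N₂) (h' : IsCut a' W' X' A' D' N₁' N₂')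
    (hf : IsMap a' a W' W f) (hfX : MapsTo f X' X) (hfA : MapsTo f A' A)
    (h11 : ∀ x ∈ X', x ∈ N₁' → f (D' 1 x) ∉ N₁) (n : ℕ) (y : H (Zr a χ W A) (Zr a χ W X) n) :
    h'.eW χ n (pullW χ hf h'.subX hfX (h'.subA.trans h'.subX) hfA n (h.eW χ n y)) = 0 := by
  obtain ⟨c, hc, rfl⟩ := H.exists_mk y
  rw [eW_mk, pullW_mk, eW_mk, H.mk_eq_zero]
  refine T_le_Bc _ _ _ ?_
  have h1 := h'.isMor.mapS ((hf.isMor_Zr h'.subX hfX (h'.subA.trans h'.subX) hfA).mapS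
    (h.isMor.mapS (mem_Zc.1 hc).1))
  have h2 := sub_mem_ZrW (X := X') (c' := 0) h1.1 eqv_zero fun x hx => ?_
  · rwa [sub_zero] at h2
  · change cutK k N₁' (D' 1) n _ x = 0
    by_cases h3 : x 0 ∈ N₁'
    · rw [cutK_of_mem h3]
      exact cutK_of_notMem (x := f ∘ (D' 1 ∘ x)) (h11 _ (hx 0) h3)
    · exact cutK_of_notMem h3

/-- **Naturality and independence.** -/
theorem pull_eW (h : IsCut a W X A D N₁ N₂) (h' : IsCut a' W' X' A' D' N₁' N₂')
    (hf : IsMap a' a W' W f) (hfX : MapsTo f X' X) (hfA : MapsTo f A' A)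
    (h12 : ∀ x ∈ X', x ∈ N₁' → f (D' 1 x) ∉ N₂) (h21 : ∀ x ∈ X', x ∈ N₂' → f (D' 1 x) ∉ N₁)
    (n : ℕ) (y : H (Zr a χ W A) (Zr a χ W X) n) :
    pullW χ hf h'.subX hfX (h'.subA.trans h'.subX) hfA n (h.eW χ n y) =
      h'.eW χ n (pullW χ hf h'.subX hfX (h'.subA.trans h'.subX) hfA n y) := by
  have e1 := h.symm.eW_pullW_eW h' hf hfX hfA h12 n y
  have e2 := h.eW_pullW_eW h'.symm hf hfX hfA h21 n y
  have e3 := h'.eW_add n
    (pullW χ hf h'.subX hfX (h'.subA.trans h'.subX) hfA n (h.eW χ n y))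
  rw [e2, add_zero] at e3
  have e4 := congrArg (fun z => h'.eW χ n
    (pullW χ hf h'.subX hfX (h'.subA.trans h'.subX) hfA n z)) (h.eW_add n y)
  simp only [map_add] at e4
  rw [e1, add_zero] at e4
  rw [← e4, e3]

end Pull

end IsCut

end Vale.Agent.P216.H467E
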