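import Vale.Agent.P216.H494.CrossGeo

/-!
# Small neighbourhoods of the critical sets adapted to the descent (P216, Theorem C, block E1)

`exists_crossNbhd'` : the theorem `H494.exists_crossNbhd` with neighbourhoods `N1`, `N2` whose
images under the descent are contained in given neighbourhoods of the critical sets.
-/

open Set Topology Filter

namespace Vale.Agent.P216.H467E

open H494

set_option linter.all false

variable {Λ : Type} [MetricSpace Λ]

theorem exists_lt_mem {X : Set Λ} (hX : IsCompact X) {f : Λ → ℝ} (hf : ContinuousOn f X)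
    (h0 : ∀ x, 0 ≤ f x) {D : Λ → Λ} (hD : ContinuousOn D X) {O : Set Λ} (hO : IsOpen O)
    (h : ∀ x ∈ X, f x = 0 → x ∈ O ∧ D x ∈ O) : ∃ c > 0, ∀ x ∈ X, f x < c → x ∈ O ∧ D x ∈ O := by
  obtain ⟨V, hV, hVe⟩ := continuousOn_iff'.1 hD O hO
  have hC : IsCompact (X \ (O ∩ V)) := hX.diff (hO.inter hV)
  rcases (X \ (O ∩ V)).eq_empty_or_nonempty with hemp | hne
  · refine ⟨1, one_pos, fun x hx _ => ?_⟩
    have h1 : x ∈ O ∩ V := by
      by_contra hcon
      have : x ∈ X \ (O ∩ V) := ⟨hx, hcon⟩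
      rw [hemp] at this
      exact this
    have h2 : x ∈ D ⁻¹' O ∩ X := by
      rw [hVe]
      exact ⟨h1.2, hx⟩
    exact ⟨h1.1, h2.1⟩
  · obtain ⟨x₀, hx₀, hmin⟩ := hC.exists_isMinOn hne (hf.mono diff_subset)
    have hpos : 0 < f x₀ := by
      refine lt_of_le_of_ne (h0 x₀) fun h1 => ?_
      obtain ⟨h2, h3⟩ := h x₀ hx₀.1 h1.symm
      have h4 : x₀ ∈ V ∩ X := by
        rw [← hVe]
        exact ⟨h3, hx₀.1⟩
      exact hx₀.2 ⟨h2, h4.1⟩
    refine ⟨f x₀, hpos, fun x hx hlt => ?_⟩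
    have h1 : x ∈ O ∩ V := by
      by_contra hcon
      have h2 := hmin (show x ∈ X \ (O ∩ V) from ⟨hx, hcon⟩)
      simp only [mem_setOf_eq] at h2
      linarith
    have h2 : x ∈ D ⁻¹' O ∩ X := by
      rw [hVe]
      exact ⟨h1.2, hx⟩
    exact ⟨h1.1, h2.1⟩

theorem exists_crossNbhd' (S : GSys Λ) {p : ℕ} (hp : 0 < p) {a T : ℝ} (ha : 0 < a) (haT : a < T)
    {D1 : Λ → Λ} (hD : ContinuousOn D1 (S.X T)) (hDm : MapsTo D1 (S.X T) (S.X T))
    (hD1 : MapsTo D1 (S.K1 a) (S.K1 a)) (hD2 : MapsTo D1 (S.K2 a) (S.K2 a))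
    (hcr : ∀ U : Set Λ, IsOpen U → S.K1 a ∪ S.K2 a ⊆ U →
      ∃ ε > 0, ∀ x ∈ S.X (a + ε), x ∉ U → D1 x ∈ S.X (a - ε)) {G₁ G₂ : Set Λ}
    (hG₁ : IsOpen G₁) (hG₂ : IsOpen G₂) (hKG₁ : S.K1 a ⊆ G₁) (hKG₂ : S.K2 a ⊆ G₂) :
    ∃ N : CrossNbhd S p a T D1, (∀ x ∈ N.N1, x ∈ G₁ ∧ D1 x ∈ G₁) ∧
      (∀ x ∈ N.N2, x ∈ G₂ ∧ D1 x ∈ G₂) := by
  have hcross : ∀ O : Set Λ, IsOpen O → S.K1 a ∪ S.K2 a ⊆ O → ∃ ε > 0, a + ε ≤ T ∧
      ∀ ε', 0 < ε' → ε' ≤ ε → ∀ x ∈ S.X (a + ε'), x ∉ O → D1 x ∈ S.X (a - ε') := by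
    intro O hO hK
    obtain ⟨ε, hε, H⟩ := hcr O hO hK
    refine ⟨min ε (T - a), lt_min hε (by linarith), ?_, ?_⟩
    · have := min_le_right ε (T - a)
      linarith
    · intro ε' hε' hle x hx hxO
      have h1 : ε' ≤ ε := hle.trans (min_le_left _ _)
      exact S.mono _ _ (by linarith) (H x (S.mono _ _ (by linarith) hx) hxO)
  rcases (S.K1 a).eq_empty_or_nonempty with hemp | hne
  · have hemp2 : S.K2 a = ∅ := by
      rw [eq_empty_iff_forall_notMem]
      intro x hx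
      have := S.K2_θ a hx
      rw [hemp] at this
      exact this
    obtain ⟨ε, hε, hle, H⟩ := hcross ∅ isOpen_empty (by rw [hemp, hemp2]; simp)
    exact ⟨{
      N1 := ∅, N2 := ∅, U1 := ∅, U2 := ∅, δ := 1, ε := ε, δ_pos := one_pos, ε_pos := hε,
      le_T := hle, N1_sub := empty_subset _, N2_sub := empty_subset _, K1_sub := hemp.subset,
      K2_sub := hemp2.subset, U1_sub := le_rfl, U2_sub := le_rfl,
      dist_N := fun x hx => absurd hx (notMem_empty x),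
      margin1 := fun x hx => absurd hx (notMem_empty x),
      margin2 := fun x hx => absurd hx (notMem_empty x),
      D_N1 := fun x hx => absurd hx (notMem_empty x),
      D_N2 := fun x hx => absurd hx (notMem_empty x),
      τ_N1 := fun _ _ => Iff.rfl, τ_N2 := fun _ _ => Iff.rfl, rot_N1 := fun _ _ => Iff.rfl,
      rot_N2 := fun _ _ => Iff.rfl, θ_N1 := fun _ _ => Iff.rfl, θ_N2 := fun _ _ => Iff.rfl,
      τ_U1 := fun _ _ => Iff.rfl, τ_U2 := fun _ _ => Iff.rfl, rot_U1 := fun _ _ => Iff.rfl,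
      rot_U2 := fun _ _ => Iff.rfl, θ_U1 := fun _ _ => Iff.rfl, θ_U2 := fun _ _ => Iff.rfl,
      open_U := ⟨∅, isOpen_empty, by simp⟩,
      cross := fun ε' h1 h2 x hx hxU => H ε' h1 h2 x hx (by simpa using hxU) },
      fun x hx => absurd hx (notMem_empty x), fun x hx => absurd hx (notMem_empty x)⟩
  · set K := S.K1 a with hK
    have hKc : IsClosed K := (S.K1_compact a ha).isClosed
    have hKT : K ⊆ S.X T := (S.K1_sub a ha).trans (S.mono _ _ haT.le)
    have hK2T : S.K2 a ⊆ S.X T := (S.K2_sub a ha).trans (S.mono _ _ haT.le)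
    set φ : Λ → ℝ := phi S p K with hφ
    set ψ : Λ → ℝ := fun x => phi S p K (S.θ x) with hψ
    have hφc : ContinuousOn φ (S.X T) := phi_continuousOn S K T
    have hψc : ContinuousOn ψ (S.X T) := hφc.comp (S.cont_θ T) (S.θ_mem T)
    have hφ0 : ∀ x, φ x = 0 ↔ x ∈ K := fun x =>
      ⟨phi_eq_zero S hp hKc hne, phi_of_mem S (S.K1_τ a) (S.K1_rot p a)⟩
    have hψ0 : ∀ x, ψ x = 0 ↔ x ∈ S.K2 a := by
      intro x
      refine (hφ0 (S.θ x)).trans ⟨fun h => ?_, fun h => S.K2_θ a h⟩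
      have := S.K1_θ a h
      rwa [S.θ_θ] at this
    have hdis : ∀ x, x ∈ K → x ∈ S.K2 a → False := fun x h1 h2 =>
      Set.disjoint_left.1 (S.K_disj a ha) h1 h2
    -- the positive function
    set m : Λ → ℝ := fun x => min (max (φ x) (ψ x)) (min (max (φ x) (ψ (D1 x)))
      (max (ψ x) (φ (D1 x)))) with hm
    have hmc : ContinuousOn m (S.X T) :=
      (hφc.sup hψc).inf ((hφc.sup (hψc.comp hD hDm)).inf (hψc.sup (hφc.comp hD hDm)))
    have hφn : ∀ x, 0 ≤ φ x := fun x => phi_nonneg S K x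
    have hψn : ∀ x, 0 ≤ ψ x := fun x => phi_nonneg S K _
    have hpos2 : ∀ u v : ℝ, 0 ≤ u → 0 ≤ v → ¬ (u = 0 ∧ v = 0) → 0 < max u v := by
      intro u v hu hv h
      by_contra hcon
      push Not at hcon
      have h1 := (le_max_left u v).trans hcon
      have h2 := (le_max_right u v).trans hcon
      exact h ⟨le_antisymm h1 hu, le_antisymm h2 hv⟩
    have hmpos : ∀ x ∈ S.X T, 0 < m x := by
      intro x hx
      refine lt_min (hpos2 _ _ (hφn _) (hψn _) ?_) (lt_min (hpos2 _ _ (hφn _) (hψn _) ?_)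
        (hpos2 _ _ (hψn _) (hφn _) ?_))
      · rintro ⟨h1, h2⟩
        exact hdis x ((hφ0 x).1 h1) ((hψ0 x).1 h2)
      · rintro ⟨h1, h2⟩
        exact hdis _ (hD1 ((hφ0 x).1 h1)) ((hψ0 _).1 h2)
      · rintro ⟨h1, h2⟩
        exact hdis _ ((hφ0 _).1 h2) (hD2 ((hψ0 x).1 h1))
    obtain ⟨x₀, hx₀, hmin⟩ := (S.compact T).exists_isMinOn (hne.mono hKT) hmc
    obtain ⟨c₁, hc₁, hG1⟩ := exists_lt_mem (S.compact T) hφc hφn hD hG₁ fun x _ h =>
      ⟨hKG₁ ((hφ0 x).1 h), hKG₁ (hD1 ((hφ0 x).1 h))⟩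
    obtain ⟨c₂, hc₂, hG2⟩ := exists_lt_mem (S.compact T) hψc hψn hD hG₂ fun x _ h =>
      ⟨hKG₂ ((hψ0 x).1 h), hKG₂ (hD2 ((hψ0 x).1 h))⟩
    set c := min (m x₀ / 2) (min c₁ c₂) with hc
    have hc0 : 0 < c := lt_min (half_pos (hmpos x₀ hx₀)) (lt_min hc₁ hc₂)
    have hcc₁ : c ≤ c₁ := (min_le_right _ _).trans (min_le_left _ _)
    have hcc₂ : c ≤ c₂ := (min_le_right _ _).trans (min_le_right _ _)
    have hmge : ∀ x ∈ S.X T, 2 * c ≤ m x := fun x hx => by
      have := hmin hx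
      simp only [mem_setOf_eq] at this
      have h5 : c ≤ m x₀ / 2 := min_le_left _ _
      linarith
    -- uniform continuity
    have hunif : ∃ δ > 0, ∀ x ∈ S.X T, ∀ y ∈ S.X T, dist x y < δ →
        |φ x - φ y| < c / 2 ∧ |ψ x - ψ y| < c / 2 := by
      have h1 := Metric.uniformContinuousOn_iff.1
        ((S.compact T).uniformContinuousOn_of_continuous hφc) (c / 2) (by positivity)
      have h2 := Metric.uniformContinuousOn_iff.1
        ((S.compact T).uniformContinuousOn_of_continuous hψc) (c / 2) (by positivity)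
      obtain ⟨δ1, hδ1, H1⟩ := h1
      obtain ⟨δ2, hδ2, H2⟩ := h2
      refine ⟨min δ1 δ2, lt_min hδ1 hδ2, fun x hx y hy h => ⟨?_, ?_⟩⟩
      · have := H1 x hx y hy (h.trans_le (min_le_left _ _))
        rwa [Real.dist_eq] at this
      · have := H2 x hx y hy (h.trans_le (min_le_right _ _))
        rwa [Real.dist_eq] at this
    obtain ⟨δ, hδ, Hδ⟩ := hunif
    -- the open set
    have hopen : ∃ O : Set Λ, IsOpen O ∧ O ∩ S.X T =
        {x | x ∈ S.X T ∧ φ x < c / 2} ∪ {x | x ∈ S.X T ∧ ψ x < c / 2} := by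
      obtain ⟨O1, hO1, e1⟩ := continuousOn_iff'.1 hφc (Iio (c / 2)) isOpen_Iio
      obtain ⟨O2, hO2, e2⟩ := continuousOn_iff'.1 hψc (Iio (c / 2)) isOpen_Iio
      refine ⟨O1 ∪ O2, hO1.union hO2, ?_⟩
      rw [union_inter_distrib_right, ← e1, ← e2]
      ext x
      simp only [mem_union, mem_inter_iff, mem_preimage, mem_Iio, mem_setOf_eq]
      tauto
    obtain ⟨O, hO, hOe⟩ := hopen
    have hKO : S.K1 a ∪ S.K2 a ⊆ O := by
      rintro x (hx | hx)
      · have : x ∈ O ∩ S.X T := by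
          rw [hOe]
          exact Or.inl ⟨hKT hx, by rw [(hφ0 x).2 hx]; positivity⟩
        exact this.1
      · have : x ∈ O ∩ S.X T := by
          rw [hOe]
          exact Or.inr ⟨hK2T hx, by rw [(hψ0 x).2 hx]; positivity⟩
        exact this.1
    obtain ⟨ε, hε, hle, H⟩ := hcross O hO hKO
    have hθ : ∀ x, φ (S.θ x) = ψ x := fun x => rfl
    have hθ' : ∀ x, ψ (S.θ x) = φ x := fun x => by
      show phi S p K (S.θ (S.θ x)) = _
      rw [S.θ_θ]
    have hφτ : ∀ x, φ (S.τ x) = φ x := fun x => phi_τ S K x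
    have hψτ : ∀ x, ψ (S.τ x) = ψ x := fun x => phi_θ_τ S K x
    have hφr : ∀ x, φ (S.rot p x) = φ x := fun x => phi_rot S hp K x
    have hψr : ∀ x, ψ (S.rot p x) = ψ x := fun x => phi_θ_rot S hp K x
    have mτ : ∀ x ∈ S.X T, (S.τ x ∈ S.X T ↔ x ∈ S.X T) := fun x hx =>
      ⟨fun _ => hx, fun _ => S.τ_mem T hx⟩
    have mr : ∀ x ∈ S.X T, (S.rot p x ∈ S.X T ↔ x ∈ S.X T) := fun x hx =>
      ⟨fun _ => hx, fun _ => S.rot_mem p T hx⟩
    have mθ : ∀ x ∈ S.X T, (S.θ x ∈ S.X T ↔ x ∈ S.X T) := fun x hx =>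
      ⟨fun _ => hx, fun _ => S.θ_mem T hx⟩
    refine ⟨{
      N1 := {x | x ∈ S.X T ∧ φ x < c}
      N2 := {x | x ∈ S.X T ∧ ψ x < c}
      U1 := {x | x ∈ S.X T ∧ φ x < c / 2}
      U2 := {x | x ∈ S.X T ∧ ψ x < c / 2}
      δ := δ
      ε := ε
      δ_pos := hδ
      ε_pos := hε
      le_T := hle
      N1_sub := fun x hx => hx.1
      N2_sub := fun x hx => hx.1
      K1_sub := fun x hx => ⟨hKT hx, by rw [(hφ0 x).2 hx]; positivity⟩
      K2_sub := fun x hx => ⟨hK2T hx, by rw [(hψ0 x).2 hx]; positivity⟩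
      U1_sub := fun x hx => ⟨hx.1, hx.2.trans (by linarith)⟩
      U2_sub := fun x hx => ⟨hx.1, hx.2.trans (by linarith)⟩
      dist_N := ?_
      margin1 := ?_
      margin2 := ?_
      D_N1 := ?_
      D_N2 := ?_
      τ_N1 := fun x hx => by simp only [mem_setOf_eq, hφτ, mτ x hx]
      τ_N2 := fun x hx => by simp only [mem_setOf_eq, hψτ, mτ x hx]
      rot_N1 := fun x hx => by simp only [mem_setOf_eq, hφr, mr x hx]
      rot_N2 := fun x hx => by simp only [mem_setOf_eq, hψr, mr x hx]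
      θ_N1 := fun x hx => by simp only [mem_setOf_eq, hθ', mθ x hx]
      θ_N2 := fun x hx => by simp only [mem_setOf_eq, hθ, mθ x hx]
      τ_U1 := fun x hx => by simp only [mem_setOf_eq, hφτ, mτ x hx]
      τ_U2 := fun x hx => by simp only [mem_setOf_eq, hψτ, mτ x hx]
      rot_U1 := fun x hx => by simp only [mem_setOf_eq, hφr, mr x hx]
      rot_U2 := fun x hx => by simp only [mem_setOf_eq, hψr, mr x hx]
      θ_U1 := fun x hx => by simp only [mem_setOf_eq, hθ', mθ x hx]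
      θ_U2 := fun x hx => by simp only [mem_setOf_eq, hθ, mθ x hx]
      open_U := ⟨O, hO, hOe⟩
      cross := ?_ }, fun x hx => hG1 x hx.1 (lt_of_lt_of_le hx.2 hcc₁),
      fun x hx => hG2 x hx.1 (lt_of_lt_of_le hx.2 hcc₂)⟩
    · rintro x ⟨hx, hx1⟩ y ⟨hy, hy1⟩
      by_contra hcon
      push Not at hcon
      have h1 := (Hδ x hx y hy hcon).2
      rw [abs_lt] at h1
      have h2 := (hmge x hx).trans (min_le_left _ _)
      rcases le_max_iff.1 h2 with h3 | h3 <;> linarith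
    · rintro x ⟨hx, hx1⟩ y hy hxy
      have h1 := (Hδ x hx y hy hxy).1
      rw [abs_lt] at h1
      exact ⟨hy, by linarith⟩
    · rintro x ⟨hx, hx1⟩ y hy hxy
      have h1 := (Hδ x hx y hy hxy).2
      rw [abs_lt] at h1
      exact ⟨hy, by linarith⟩
    · rintro x ⟨hx, hx1⟩ ⟨-, hx2⟩
      have h2 := ((hmge x hx).trans (min_le_right _ _)).trans (min_le_left _ _)
      rcases le_max_iff.1 h2 with h3 | h3 <;> linarith
    · rintro x ⟨hx, hx1⟩ ⟨-, hx2⟩
      have h2 := ((hmge x hx).trans (min_le_right _ _)).trans (min_le_right _ _)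
      rcases le_max_iff.1 h2 with h3 | h3 <;> linarith
    · intro ε' h1 h2 x hx hxU
      refine H ε' h1 h2 x hx fun hxO => hxU ?_
      rw [← hOe]
      exact ⟨hxO, S.mono _ _ (by linarith) hx⟩

end Vale.Agent.P216.H467E
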