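import Vale.Agent.P216.H467E.CutD
import Vale.Agent.P216.H467E.CutW
import Vale.Agent.P216.H467E.Nbhd
import Vale.Agent.P216.H467E.Two
import Vale.Agent.P216.AS.End707

/-!
# Families of cut data at a critical level (P216, Theorem C, block E1)

`FamD S p a ε`: one descent `D` and two neighbourhoods `N₁`, `N₂` of `K1 a`, `K2 a` which define cut
data for all pairs `(X t, X s)` with `a - ε ≤ s ≤ t ≤ a + ε`.

* `FamD.cut`, `FamD.cut_revC` : the cut datum of `(X t, X s)`;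
* `exists_fam` : existence, with neighbourhoods as small as we like, for the group `Z/4`.
-/

open Set Topology

namespace Vale.Agent.P216.H467E

open AS

/-- A family of cut data at the level `a`. -/
structure FamD {Λ : Type} [PseudoMetricSpace Λ] (S : GSys Λ) (p : ℕ) (a ε : ℝ) where
  D : ℝ → Λ → Λ
  N₁ : Set Λ
  N₂ : Set Λ
  /-- open subset of `N₁` (in `X (a + ε)`) containing `K1 a` -/
  O₁ : Set Λ
  /-- open subset of `N₂` (in `X (a + ε)`) containing `K2 a` -/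
  O₂ : Set Λ
  δ : ℝ
  δ_pos : 0 < δ
  htpy : IsHtpy (fun _ : Unit => S.τ) (fun _ : Unit => S.τ) (S.X (a + ε)) (S.X (a + ε)) D
  D_zero : ∀ x ∈ S.X (a + ε), D 0 x = x
  D_mem : ∀ u ∈ Icc (0 : ℝ) 1, ∀ s ≤ a + ε, MapsTo (D u) (S.X s) (S.X s)
  D_rot : ∀ u ∈ Icc (0 : ℝ) 1, ∀ x ∈ S.X (a + ε), D u (S.rot p x) = S.rot p (D u x)
  D_θ : ∀ x ∈ S.X (a + ε), D 1 (S.θ x) = S.θ (D 1 x)
  N₁_τ : ∀ x ∈ S.X (a + ε), (S.τ x ∈ N₁ ↔ x ∈ N₁)
  N₂_τ : ∀ x ∈ S.X (a + ε), (S.τ x ∈ N₂ ↔ x ∈ N₂)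
  N₁_rot : ∀ x ∈ S.X (a + ε), (S.rot p x ∈ N₁ ↔ x ∈ N₁)
  N₂_rot : ∀ x ∈ S.X (a + ε), (S.rot p x ∈ N₂ ↔ x ∈ N₂)
  N_θ : ∀ x ∈ S.X (a + ε), (S.θ x ∈ N₁ ↔ x ∈ N₂)
  disj : ∀ x ∈ S.X (a + ε), x ∈ N₁ → x ∉ N₂
  D₁₂ : ∀ x ∈ S.X (a + ε), x ∈ N₁ → D 1 x ∉ N₂
  D₂₁ : ∀ x ∈ S.X (a + ε), x ∈ N₂ → D 1 x ∉ N₁
  cover : ∀ z ∈ S.X (a + ε), D 1 z ∉ S.X (a - ε) →
    (∀ x ∈ S.X (a + ε), dist x z < δ → x ∈ N₁) ∨ (∀ x ∈ S.X (a + ε), dist x z < δ → x ∈ N₂)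
  open₁ : IsOpen O₁
  open₂ : IsOpen O₂
  K₁ : S.K1 a ⊆ O₁
  K₂ : S.K2 a ⊆ O₂
  sub₁ : ∀ x ∈ S.X (a + ε), x ∈ O₁ → x ∈ N₁
  sub₂ : ∀ x ∈ S.X (a + ε), x ∈ O₂ → x ∈ N₂

namespace FamD

section

variable {Λ : Type} [PseudoMetricSpace Λ] {S : GSys Λ} {p : ℕ} {a ε : ℝ} (B : FamD S p a ε)

/-- The same family on a smaller interval. -/
def mono {ε' : ℝ} (h : ε' ≤ ε) : FamD S p a ε' where
  D := B.D
  N₁ := B.N₁
  N₂ := B.N₂
  O₁ := B.O₁
  O₂ := B.O₂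
  δ := B.δ
  δ_pos := B.δ_pos
  htpy := B.htpy.mono (S.mono _ _ (by linarith)) fun u hu => B.D_mem u hu _ (by linarith)
  D_zero x hx := B.D_zero x (S.mono _ _ (by linarith) hx)
  D_mem u hu s hs := B.D_mem u hu s (by linarith)
  D_rot u hu x hx := B.D_rot u hu x (S.mono _ _ (by linarith) hx)
  D_θ x hx := B.D_θ x (S.mono _ _ (by linarith) hx)
  N₁_τ x hx := B.N₁_τ x (S.mono _ _ (by linarith) hx)
  N₂_τ x hx := B.N₂_τ x (S.mono _ _ (by linarith) hx)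
  N₁_rot x hx := B.N₁_rot x (S.mono _ _ (by linarith) hx)
  N₂_rot x hx := B.N₂_rot x (S.mono _ _ (by linarith) hx)
  N_θ x hx := B.N_θ x (S.mono _ _ (by linarith) hx)
  disj x hx := B.disj x (S.mono _ _ (by linarith) hx)
  D₁₂ x hx := B.D₁₂ x (S.mono _ _ (by linarith) hx)
  D₂₁ x hx := B.D₂₁ x (S.mono _ _ (by linarith) hx)
  cover z hz hz' :=
    (B.cover z (S.mono _ _ (by linarith) hz) fun h => hz' (S.mono _ _ (by linarith) h)).imp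
      (fun h x hx => h x (S.mono _ _ (by linarith) hx))
      fun h x hx => h x (S.mono _ _ (by linarith) hx)
  open₁ := B.open₁
  open₂ := B.open₂
  K₁ := B.K₁
  K₂ := B.K₂
  sub₁ x hx := B.sub₁ x (S.mono _ _ (by linarith) hx)
  sub₂ x hx := B.sub₂ x (S.mono _ _ (by linarith) hx)

variable (k : Type) [Field k] (hp : 0 < p) {s t : ℝ}

/-- The cut datum of the pair `(X t, X s)`, `a - ε ≤ s ≤ t ≤ a + ε`. -/
def cut (h : s ≤ t) (hs : a - ε ≤ s) (ht : t ≤ a + ε) : CutD (S.sym k p hp) (S.X t) (S.X s) where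
  D := B.D
  N₁ := B.N₁
  N₂ := B.N₂
  δ := B.δ
  δ_pos := B.δ_pos
  sub := S.mono s t h
  htpy := B.htpy.mono (S.mono _ _ ht) fun u hu => B.D_mem u hu _ ht
  D_zero x hx := B.D_zero x (S.mono _ _ ht hx)
  D_mem u hu := B.D_mem u hu s (h.trans ht)
  D_g x hx := B.D_rot 1 ⟨zero_le_one, le_rfl⟩ x (S.mono _ _ ht hx)
  N₁_a _ x hx := B.N₁_τ x (S.mono _ _ ht hx)
  N₂_a _ x hx := B.N₂_τ x (S.mono _ _ ht hx)
  N₁_g x hx := B.N₁_rot x (S.mono _ _ ht hx)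
  N₂_g x hx := B.N₂_rot x (S.mono _ _ ht hx)
  disj x hx := B.disj x (S.mono _ _ ht hx)
  D₁₂ x hx := B.D₁₂ x (S.mono _ _ ht hx)
  D₂₁ x hx := B.D₂₁ x (S.mono _ _ ht hx)
  cover z hz hz' := (B.cover z (S.mono _ _ ht hz) fun h => hz' (S.mono _ _ hs h)).imp
      (fun h x hx => h x (S.mono _ _ ht hx)) fun h x hx => h x (S.mono _ _ ht hx)

theorem cut_revC (h : s ≤ t) (hs : a - ε ≤ s) (ht : t ≤ a + ε) : (B.cut k hp h hs ht).RevC where
  D_r x hx := B.D_θ x (S.mono _ _ ht hx)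
  N_r x hx := B.N_θ x (S.mono _ _ ht hx)

/-- The cut datum of `(X t, X s)` as a datum in the world `X t`. -/
theorem isCut (h : s ≤ t) (hs : a - ε ≤ s) (ht : t ≤ a + ε) :
    IsCut (fun _ : Unit => S.τ) (S.X t) (S.X t) (S.X s) B.D B.N₁ B.N₂ where
  subX := le_rfl
  subA := S.mono s t h
  htpy := B.htpy.mono (S.mono _ _ ht) fun u hu => B.D_mem u hu _ ht
  D_zero x hx := B.D_zero x (S.mono _ _ ht hx)
  D_X u hu := B.D_mem u hu _ ht
  D_A u hu := B.D_mem u hu _ (h.trans ht)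
  N₁_a _ x hx := B.N₁_τ x (S.mono _ _ ht hx)
  N₂_a _ x hx := B.N₂_τ x (S.mono _ _ ht hx)
  disj x hx := B.disj x (S.mono _ _ ht hx)
  cover := ⟨B.δ, B.δ_pos, fun z hz hz' =>
    (B.cover z (S.mono _ _ ht hz) fun h => hz' (S.mono _ _ hs h)).imp
      (fun h x hx => h x (S.mono _ _ ht hx)) fun h x hx => h x (S.mono _ _ ht hx)⟩

/-- The fixed set of the `j`-th power of the rotation. -/
theorem D_iter (j : ℕ) {u : ℝ} (hu : u ∈ Icc (0 : ℝ) 1) {x : Λ} (hx : x ∈ S.X (a + ε)) :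
    B.D u ((S.rot p)^[j] x) = (S.rot p)^[j] (B.D u x) := by
  have hm : ∀ j : ℕ, (S.rot p)^[j] x ∈ S.X (a + ε) := fun j => by
    induction j with
    | zero => exact hx
    | succ j ih => rw [Function.iterate_succ_apply']; exact S.rot_mem p _ ih
  induction j with
  | zero => rfl
  | succ j ih =>
    rw [Function.iterate_succ_apply', Function.iterate_succ_apply', B.D_rot u hu _ (hm j), ih]

/-- The cut datum of the fixed sets of `(rot p)^j` in the world `X t`. -/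
theorem isCut_fix (j : ℕ) (h : s ≤ t) (hs : a - ε ≤ s) (ht : t ≤ a + ε) :
    IsCut (fun _ : Unit => S.τ) (S.X t) {x ∈ S.X t | (S.rot p)^[j] x = x}
      {x ∈ S.X s | (S.rot p)^[j] x = x} B.D B.N₁ B.N₂ where
  subX x hx := hx.1
  subA x hx := ⟨S.mono s t h hx.1, hx.2⟩
  htpy := B.htpy.mono (S.mono _ _ ht) fun u hu => B.D_mem u hu _ ht
  D_zero x hx := B.D_zero x (S.mono _ _ ht hx)
  D_X u hu x hx := ⟨B.D_mem u hu _ ht hx.1, by
    rw [← B.D_iter j hu (S.mono _ _ ht hx.1), hx.2]⟩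
  D_A u hu x hx := ⟨B.D_mem u hu _ (h.trans ht) hx.1, by
    rw [← B.D_iter j hu (S.mono _ _ (h.trans ht) hx.1), hx.2]⟩
  N₁_a _ x hx := B.N₁_τ x (S.mono _ _ ht hx)
  N₂_a _ x hx := B.N₂_τ x (S.mono _ _ ht hx)
  disj x hx := B.disj x (S.mono _ _ ht hx.1)
  cover := ⟨B.δ, B.δ_pos, fun z hz hz' => by
    have h1 : B.D 1 z ∉ S.X (a - ε) := fun h1 => hz' ⟨S.mono _ _ hs h1, by
      rw [← B.D_iter j ⟨zero_le_one, le_rfl⟩ (S.mono _ _ ht hz.1), hz.2]⟩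
    exact (B.cover z (S.mono _ _ ht hz.1) h1).imp
      (fun h x hx => h x (S.mono _ _ ht hx.1)) fun h x hx => h x (S.mono _ _ ht hx.1)⟩

end

/-- **Existence**, with small neighbourhoods. -/
theorem _root_.Vale.Agent.P216.H467E.exists_fam {Λ : Type} [MetricSpace Λ] {S : GSys Λ}
    (W : S.Two) {a : ℝ} (ha : 0 < a) {G₁ G₂ : Set Λ} (hG₁ : IsOpen G₁) (hG₂ : IsOpen G₂)
    (hKG₁ : S.K1 a ⊆ G₁) (hKG₂ : S.K2 a ⊆ G₂) :
    ∃ ε > 0, ε < a ∧ ∃ B : FamD S 4 a ε,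
      (∀ x ∈ S.X (a + ε), x ∈ B.N₁ → x ∈ G₁ ∧ B.D 1 x ∈ G₁) ∧
      (∀ x ∈ S.X (a + ε), x ∈ B.N₂ → x ∈ G₂ ∧ B.D 1 x ∈ G₂) := by
  obtain ⟨D, hc, h0, hm, hτ, hr, hθ, hK, hpass⟩ := W.descent (a + 1) (by linarith)
  have h1 : (1 : ℝ) ∈ Icc (0 : ℝ) 1 := ⟨zero_le_one, le_rfl⟩
  have hD1 : ContinuousOn (D 1) (S.X (a + 1)) := by
    have h2 : ContinuousOn (fun x : Λ => ((1 : ℝ), x)) (S.X (a + 1)) :=
      (Continuous.prodMk_right (1 : ℝ)).continuousOn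
    exact hc.comp h2 fun x hx => ⟨h1, hx⟩
  obtain ⟨N, hN1, hN2⟩ := exists_crossNbhd' S (p := 4) (by norm_num) ha
    (show a < a + 1 by linarith) hD1
    (hm 1 h1 _ le_rfl) (hK 1 h1 a ha (by linarith)).1 (hK 1 h1 a ha (by linarith)).2
    (hpass a ha (by linarith)) hG₁ hG₂ hKG₁ hKG₂
  have hεN : min N.ε (a / 2) ≤ N.ε := min_le_left _ _
  have hεa : min N.ε (a / 2) ≤ a / 2 := min_le_right _ _
  have hε : 0 < min N.ε (a / 2) := lt_min N.ε_pos (by linarith)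
  have hT : a + min N.ε (a / 2) ≤ a + 1 := by linarith [N.le_T]
  have hX : S.X (a + min N.ε (a / 2)) ⊆ S.X (a + 1) := S.mono _ _ hT
  refine ⟨min N.ε (a / 2), hε, by linarith, {
    D := D
    N₁ := N.N1
    N₂ := N.N2
    O₁ := Metric.thickening N.δ (S.K1 a)
    O₂ := Metric.thickening N.δ (S.K2 a)
    δ := N.δ
    δ_pos := N.δ_pos
    htpy := IsHtpy.of_continuousOn (S.compact _) (hc.mono (prod_mono le_rfl hX))
      (fun u hu => hm u hu _ hT) fun u hu _ x hx => hτ u hu x (hX hx)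
    D_zero := fun x hx => h0 x (hX hx)
    D_mem := fun u hu s hs => hm u hu _ (hs.trans hT)
    D_rot := fun u hu x hx => hr u hu x (hX hx)
    D_θ := fun x hx => hθ x (hX hx)
    N₁_τ := fun x hx => N.τ_N1 x (hX hx)
    N₂_τ := fun x hx => N.τ_N2 x (hX hx)
    N₁_rot := fun x hx => N.rot_N1 x (hX hx)
    N₂_rot := fun x hx => N.rot_N2 x (hX hx)
    N_θ := fun x hx => N.θ_N2 x (hX hx)
    disj := fun x _ hx1 hx2 => ?_
    D₁₂ := fun x _ hx1 => N.D_N1 x hx1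
    D₂₁ := fun x _ hx2 => N.D_N2 x hx2
    cover := fun z hz hz' => ?_
    open₁ := Metric.isOpen_thickening
    open₂ := Metric.isOpen_thickening
    K₁ := Metric.self_subset_thickening N.δ_pos _
    K₂ := Metric.self_subset_thickening N.δ_pos _
    sub₁ := fun x hx hxO => ?_
    sub₂ := fun x hx hxO => ?_ }, fun x _ hx => hN1 x hx, fun x _ hx => hN2 x hx⟩
  · have := N.dist_N x hx1 x hx2
    rw [dist_self] at this
    linarith [N.δ_pos]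
  · have hzU : z ∈ N.U1 ∪ N.U2 := by
      by_contra h
      exact hz' (N.cross _ hε hεN z hz h)
    rcases hzU with hz1 | hz2
    · exact Or.inl fun x hx hxz => N.margin1 z hz1 x (hX hx) (by rwa [dist_comm])
    · exact Or.inr fun x hx hxz => N.margin2 z hz2 x (hX hx) (by rwa [dist_comm])
  · obtain ⟨z, hz, hxz⟩ := Metric.mem_thickening_iff.1 hxO
    exact N.margin1 z (N.K1_sub hz) x (hX hx) (by rwa [dist_comm])
  · obtain ⟨z, hz, hxz⟩ := Metric.mem_thickening_iff.1 hxO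
    exact N.margin2 z (N.K2_sub hz) x (hX hx) (by rwa [dist_comm])

end FamD

end Vale.Agent.P216.H467E
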