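import Vale.Agent.P216.H467.CrossBal
import Vale.Agent.P216.AS.Setup707
import Vale.Agent.P216.DV706.Nat
import Vale.Agent.P216.DV706.Inst

/-!
# The projection onto one half of the critical circles (P216, Theorem C, block E1)

`CutD Y X A`: a cut datum for the pair `(X, A)` with the symmetries `Y : Sym E k I p` (any `I`,
any `p`).  `B.eN`, `B.eFF`, `B.eR` are the operators induced by the cochain map
`c ↦ 1[x 0 ∈ N₁] c (D 1 ∘ x)` on `H (X, A)`, on the `ℤ/p`-equivariant cohomology and on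
`F = ker V`.
-/

open Set Matrix

namespace Vale.Agent.P216.H467E

open AS DV

variable {E : Type} [PseudoMetricSpace E] {k : Type} [Field k] {I : Type} {p : ℕ}

/-- A cut datum for the pair `(X, A)`: `D` is a descent, `N₁`, `N₂` are neighbourhoods of the two
parts of the critical set. -/
structure CutD (Y : Sym E k I p) (X A : Set E) where
  D : ℝ → E → E
  N₁ : Set E
  N₂ : Set E
  δ : ℝ
  δ_pos : 0 < δ
  sub : A ⊆ X
  htpy : IsHtpy Y.a Y.a X X D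
  D_zero : ∀ x ∈ X, D 0 x = x
  D_mem : ∀ u ∈ Icc (0 : ℝ) 1, MapsTo (D u) A A
  D_g : ∀ x ∈ X, D 1 (Y.g x) = Y.g (D 1 x)
  N₁_a : ∀ i, ∀ x ∈ X, (Y.a i x ∈ N₁ ↔ x ∈ N₁)
  N₂_a : ∀ i, ∀ x ∈ X, (Y.a i x ∈ N₂ ↔ x ∈ N₂)
  N₁_g : ∀ x ∈ X, (Y.g x ∈ N₁ ↔ x ∈ N₁)
  N₂_g : ∀ x ∈ X, (Y.g x ∈ N₂ ↔ x ∈ N₂)
  disj : ∀ x ∈ X, x ∈ N₁ → x ∉ N₂
  D₁₂ : ∀ x ∈ X, x ∈ N₁ → D 1 x ∉ N₂
  D₂₁ : ∀ x ∈ X, x ∈ N₂ → D 1 x ∉ N₁
  cover : ∀ z ∈ X, D 1 z ∉ A →
    (∀ x ∈ X, dist x z < δ → x ∈ N₁) ∨ (∀ x ∈ X, dist x z < δ → x ∈ N₂)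

namespace CutD

variable {Y : Sym E k I p} {X A : Set E} (B : CutD Y X A)

/-- Compatibility with the reversal. -/
structure RevC : Prop where
  D_r : ∀ x ∈ X, B.D 1 (Y.r x) = Y.r (B.D 1 x)
  N_r : ∀ x ∈ X, (Y.r x ∈ B.N₁ ↔ x ∈ B.N₂)

/-- The same datum with the two neighbourhoods exchanged. -/
def swap : CutD Y X A where
  D := B.D
  N₁ := B.N₂
  N₂ := B.N₁
  δ := B.δ
  δ_pos := B.δ_pos
  sub := B.sub
  htpy := B.htpy
  D_zero := B.D_zero
  D_mem := B.D_mem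
  D_g := B.D_g
  N₁_a := B.N₂_a
  N₂_a := B.N₁_a
  N₁_g := B.N₂_g
  N₂_g := B.N₁_g
  disj x hx h h' := B.disj x hx h' h
  D₁₂ := B.D₂₁
  D₂₁ := B.D₁₂
  cover z hz hz' := (B.cover z hz hz').symm

/-- The cut operator on cochains. -/
noncomputable abbrev φ (n : ℕ) : (ASK E k).K n →ₗ[k] (ASK E k).K n := cutK k B.N₁ (B.D 1) n

theorem D_one_mem : MapsTo (B.D 1) A A := B.D_mem 1 ⟨zero_le_one, le_rfl⟩

theorem isMor : IsMor (Zr Y.a Y.χ X A) (Zr Y.a Y.χ X X) (Zr Y.a Y.χ X A) (Zr Y.a Y.χ X X) B.φ := by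
  refine cutK_isMor B.htpy.one B.sub B.D_one_mem B.N₁_a B.δ_pos ?_
  intro x hx y hy z hz _ hzx hzy h1 h2
  by_contra h
  rcases B.cover z hz h with h' | h'
  · exact h2 (h' y hy (by rwa [dist_comm]))
  · exact B.disj x hx h1 (h' x hx (by rwa [dist_comm]))

section Good

variable (h : Y.Good X) (hA : Y.GoodSub X A)

/-- The pair `(X, A)` in the world `X`. -/
abbrev P : Y.gcx.Pair := Sym.PR h h.self hA hA.sub

include h in
theorem g_iter_mem (i : ℕ) {x : E} (hx : x ∈ X) : (Y.g)^[i] x ∈ X := by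
  induction i with
  | zero => exact hx
  | succ i ih => rw [Function.iterate_succ_apply']; exact h.mg ih

include h in
theorem N₁_iter (i : ℕ) {x : E} (hx : x ∈ X) : ((Y.g)^[i] x ∈ B.N₁ ↔ x ∈ B.N₁) := by
  induction i with
  | zero => exact Iff.rfl
  | succ i ih => rw [Function.iterate_succ_apply', B.N₁_g _ (g_iter_mem h i hx), ih]

include h in
theorem D_iter (i : ℕ) {x : E} (hx : x ∈ X) :
    B.D 1 ((Y.g)^[i] x) = (Y.g)^[i] (B.D 1 x) := by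
  induction i with
  | zero => rfl
  | succ i ih =>
    rw [Function.iterate_succ_apply', B.D_g _ (g_iter_mem h i hx), ih,
      Function.iterate_succ_apply']

include h in
theorem cut_gpow (n i : ℕ) (c : (ASK E k).K n) {x : Fin (n + 1) → E} (hx : ∀ j, x j ∈ X) :
    (Y.gK n ^ i) (B.φ n c) x = B.φ n ((Y.gK n ^ i) c) x := by
  have e1 : ∀ c' : (ASK E k).K n, (Y.gK n ^ i) c' = pbK k (Y.g^[i]) n c' := fun c' =>
    pbK_pow Y.g n i c'
  rw [e1, e1]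
  exact cutK_comp (fun y hy => B.N₁_iter h i hy) (fun y hy => B.D_iter h i hy) c hx

include h in
/-- The cut operator commutes with the polynomials in `g`. -/
theorem cut_sumK (b : ℕ → k) (n : ℕ) (c : (ASK E k).K n) {x : Fin (n + 1) → E}
    (hx : ∀ j, x j ∈ X) : sumK Y b n (B.φ n c) x = B.φ n (sumK Y b n c) x := by
  rw [sumK_apply, sumK_apply, map_sum]
  rw [Finset.sum_apply, Finset.sum_apply]
  refine Finset.sum_congr rfl fun i _ => ?_
  rw [map_smul]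
  change b i • ((Y.gK n ^ i) (B.φ n c)) x = b i • (B.φ n ((Y.gK n ^ i) c)) x
  rw [B.cut_gpow h n i c hx]

theorem isGMor : IsGMor (P h hA) (P h hA) B.φ where
  toIsMor := B.isMor
  comm_g {n c} hc := by
    have hS := (P h hA).hS
    refine sub_mem_Zr (hS.g_mem n _ (B.isMor.mapS hc)).1 (B.isMor.mapS (hS.g_mem n _ hc)).1 ?_
    intro x hx
    exact cutK_comp B.N₁_g B.D_g c hx
  comm_nm {n c} hc := by
    have hS := (P h hA).hS
    refine sub_mem_Zr (hS.nm_mem n _ (B.isMor.mapS hc)).1 (B.isMor.mapS (hS.nm_mem n _ hc)).1 ?_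
    intro x hx
    change H609.nm p (Y.gK n) (B.φ n c) x = B.φ n (H609.nm p (Y.gK n) c) x
    unfold H609.nm
    rw [LinearMap.sum_apply, LinearMap.sum_apply, map_sum, Finset.sum_apply, Finset.sum_apply]
    exact Finset.sum_congr rfl fun i _ => B.cut_gpow h n i c hx

/-- The cut operator commutes with the operator `A` of a circle structure which is a polynomial
in `g`, modulo the small complex. -/
theorem comm_A {C : Circ Y.gcx} (b : ℕ → k) (hb : ∀ n x, C.A n x = sumK Y b n x) {n : ℕ}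
    {x : (ASK E k).K n} (hx : x ∈ (P h hA).S.S n) :
    C.A n (B.φ n x) - B.φ n (C.A n x) ∈ (P h hA).T.S n := by
  have hS := (P h hA).hS
  have hm : ∀ y ∈ (P h hA).S.S n, sumK Y b n y ∈ (P h hA).S.S n := fun y hy =>
    sumK_mem Y b (fun z hz => hS.g_mem n z hz) hy
  rw [hb, hb]
  exact sub_mem_Zr (hm _ (B.isMor.mapS hx)).1 (B.isMor.mapS (hm _ hx)).1
    fun y hy => B.cut_sumK h b n x hy

/-! ### The operators -/

/-- the projection on `H (X, A)` -/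
noncomputable def eN (n : ℕ) : (P h hA).HH n →ₗ[k] (P h hA).HH n := (B.isGMor h hA).mapH n

/-- the projection on the `ℤ/p`-equivariant cohomology -/
noncomputable def eFF (n : ℕ) : (P h hA).FF n →ₗ[k] (P h hA).FF n := (B.isGMor h hA).mapF n

/-- the projection on `F = ker V` -/
noncomputable def eR {C : Circ Y.gcx} (hP : C.PSt (P h hA)) (b : ℕ → k)
    (hb : ∀ n x, C.A n x = sumK Y b n x) (n : ℕ) : hP.F n →ₗ[k] hP.F n :=
  Circ.PSt.mapF hP hP (B.isGMor h hA) (fun hx => B.comm_A h hA b hb hx) n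

theorem eN_mk {n : ℕ} {c : (ASK E k).K n} (hc : c ∈ Zc (P h hA).S (P h hA).T n) :
    ∃ hc', B.eN h hA n (H.mk c hc) = H.mk (B.φ n c) hc' := ⟨_, rfl⟩

theorem eFF_mk {n : ℕ} {c : ∀ q, (ASK E k).K q}
    (hc : c ∈ Zc (Y.gcx.TotS (P h hA).S (P h hA).hS) (Y.gcx.TotS (P h hA).T (P h hA).hT) n) :
    ∃ hc', B.eFF h hA n (H.mk (C := Y.gcx.Tot) c hc) =
      H.mk (C := Y.gcx.Tot) (IsGMor.seq B.φ c) hc' := ⟨_, rfl⟩

section Circ

variable {C : Circ Y.gcx} (hP : C.PSt (P h hA)) (b : ℕ → k)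
  (hb : ∀ n x, C.A n x = sumK Y b n x)

theorem eR_coe (n : ℕ) (x : hP.F n) :
    (B.eR h hA hP b hb n x : (P h hA).FF (n + 1)) = B.eFF h hA (n + 1) x.1 := rfl

theorem e_π (n : ℕ) (x : hP.F n) :
    B.eN h hA n (hP.πF n x) = hP.πF n (B.eR h hA hP b hb n x) :=
  (Circ.PSt.πF_mapF hP hP (B.isGMor h hA) (fun hx => B.comm_A h hA b hb hx) n x).symm

theorem e_u (n : ℕ) (x : hP.F n) :
    B.eR h hA hP b hb (n + 2) (hP.uF n x) = hP.uF n (B.eR h hA hP b hb n x) :=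
  (Circ.PSt.uF_mapF hP hP (B.isGMor h hA) (fun hx => B.comm_A h hA b hb hx) n x).symm

theorem e_d (n : ℕ) (y : (P h hA).HH (n + 1)) :
    B.eR h hA hP b hb n (hP.dF n y) = hP.dF n (B.eN h hA (n + 1) y) :=
  (Circ.PSt.dF_mapH hP hP (B.isGMor h hA) (fun hx => B.comm_A h hA b hb hx) n y).symm

end Circ

/-- `e + e' = 1` on `H (X, A)`. -/
theorem eN_add (n : ℕ) (y : (P h hA).HH n) : B.eN h hA n y + B.swap.eN h hA n y = y := by
  obtain ⟨c, hc, rfl⟩ := H.exists_mk y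
  obtain ⟨h1, e1⟩ := B.eN_mk h hA hc
  obtain ⟨h2, e2⟩ := B.swap.eN_mk h hA hc
  rw [e1, e2, ← H.mk_add, H.mk_eq_mk]
  have hc' : c ∈ Zc (Zr Y.a Y.χ X A) (Zr Y.a Y.χ X X) n := hc
  have h1 : pbK k (B.D 1) n c - pbK k (B.D 0) n c ∈
      Bc (Zr Y.a Y.χ X A) (Zr Y.a Y.χ X X) n :=
    homotopy_mem B.htpy B.sub B.D_mem hc'
  have h2 : pbK k (B.D 0) n c - c ∈ Zr Y.a Y.χ X X n := by
    refine sub_mem_Zr (B.htpy.zero.pb_eqv hc'.1.1) hc'.1.1 fun x hx => ?_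
    change c (B.D 0 ∘ x) = c x
    congr 1
    funext i
    exact B.D_zero _ (hx i)
  have h3 : B.φ n c + B.swap.φ n c - pbK k (B.D 1) n c ∈ Zr Y.a Y.χ X X n := by
    obtain ⟨hcE, ε, hε, h4⟩ := hc'.1
    obtain ⟨η, hη, h5⟩ := B.htpy.one.uc ε hε
    refine ⟨((B.isMor.mapS hc'.1).1.add (B.swap.isMor.mapS hc'.1).1).sub
      (B.htpy.one.pb_eqv hcE), min B.δ η, lt_min B.δ_pos hη, fun x hx => ?_⟩
    change cutK k B.N₁ (B.D 1) n c x + cutK k B.N₂ (B.D 1) n c x - c (B.D 1 ∘ x) = 0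
    by_cases hx1 : x 0 ∈ B.N₁
    · rw [cutK_of_mem hx1, cutK_of_notMem (B.disj _ (hx.1 0) hx1), add_zero, sub_self]
    · by_cases hx2 : x 0 ∈ B.N₂
      · rw [cutK_of_mem hx2, cutK_of_notMem hx1, zero_add, sub_self]
      · rw [cutK_of_notMem hx1, cutK_of_notMem hx2, zero_add, zero_sub, neg_eq_zero]
        refine h4 _ ⟨fun j => ?_, fun i j => ?_⟩
        · by_contra h
          rcases B.cover (x j) (hx.1 j) h with h' | h'
          · exact hx1 (h' _ (hx.1 0) ((hx.2 0 j).trans_le (min_le_left _ _)))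
          · exact hx2 (h' _ (hx.1 0) ((hx.2 0 j).trans_le (min_le_left _ _)))
        · exact h5 _ (hx.1 i) _ (hx.1 j) ((hx.2 i j).trans_le (min_le_right _ _))
  have h6 := Submodule.add_mem _ (Submodule.add_mem _ (T_le_Bc _ _ _ h3) h1) (T_le_Bc _ _ _ h2)
  rw [sub_add_sub_cancel, sub_add_sub_cancel] at h6
  exact h6

/-- Two cut data whose neighbourhoods do not interact. -/
theorem cut_cut_mem (B' : CutD Y X A) (h12 : ∀ x ∈ X, x ∈ B.N₁ → B.D 1 x ∉ B'.N₁) {n : ℕ}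
    {c : (ASK E k).K n} (hc : c ∈ Zr Y.a Y.χ X A n) : B.φ n (B'.φ n c) ∈ Zr Y.a Y.χ X X n := by
  have h1 := B.isMor.mapS (B'.isMor.mapS hc)
  have h2 := sub_mem_Zr (c' := 0) h1.1 eqv_zero (V := X) fun x hx => ?_
  · rwa [sub_zero] at h2
  · change cutK k B.N₁ (B.D 1) n _ x = 0
    by_cases h : x 0 ∈ B.N₁
    · rw [cutK_of_mem h]
      exact cutK_of_notMem (h12 _ (hx 0) h)
    · exact cutK_of_notMem h

theorem eN_eN_eq_zero (B' : CutD Y X A) (h12 : ∀ x ∈ X, x ∈ B.N₁ → B.D 1 x ∉ B'.N₁) (n : ℕ)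
    (y : (P h hA).HH n) : B.eN h hA n (B'.eN h hA n y) = 0 := by
  obtain ⟨c, hc, rfl⟩ := H.exists_mk y
  obtain ⟨h1, e1⟩ := B'.eN_mk h hA hc
  rw [e1]
  obtain ⟨h2, e2⟩ := B.eN_mk h hA h1
  rw [e2, H.mk_eq_zero]
  exact T_le_Bc _ _ _ (B.cut_cut_mem B' h12 (mem_Zc.mp hc).1)

/-- `e e' = 0`. -/
theorem eN_swap (n : ℕ) (y : (P h hA).HH n) : B.eN h hA n (B.swap.eN h hA n y) = 0 :=
  B.eN_eN_eq_zero h hA B.swap B.D₁₂ n y

/-- `e e = e`. -/
theorem eN_eN (n : ℕ) (y : (P h hA).HH n) : B.eN h hA n (B.eN h hA n y) = B.eN h hA n y := by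
  have h1 := B.eN_add h hA n (B.eN h hA n y)
  have h2 : B.swap.eN h hA n (B.eN h hA n y) = 0 := B.swap.eN_swap h hA n y
  rwa [h2, add_zero] at h1

/-- **Independence.** Two cut data with non interacting neighbourhoods define the same
projection. -/
theorem eN_eq (B' : CutD Y X A) (h12 : ∀ x ∈ X, x ∈ B.N₁ → B.D 1 x ∉ B'.N₂)
    (h21 : ∀ x ∈ X, x ∈ B.N₂ → B.D 1 x ∉ B'.N₁) (n : ℕ) (y : (P h hA).HH n) :
    B.eN h hA n y = B'.eN h hA n y := by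
  have h1 : B.eN h hA n (B'.swap.eN h hA n y) = 0 := B.eN_eN_eq_zero h hA B'.swap h12 n y
  have h2 : B.swap.eN h hA n (B'.eN h hA n y) = 0 := B.swap.eN_eN_eq_zero h hA B' h21 n y
  have h3 := congrArg (B.eN h hA n) (B'.eN_add h hA n y)
  rw [map_add, h1, add_zero] at h3
  have h4 := B.eN_add h hA n (B'.eN h hA n y)
  rw [h2, add_zero] at h4
  rw [← h3, h4]

/-- The reversal exchanges the two projections. -/
theorem θ_eN (hr : B.RevC) (n : ℕ) (y : (P h hA).HH n) :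
    GCx.Pair.rH (Sym.PR_rstable h h.self hA hA.sub) n (B.eN h hA n y) =
      B.swap.eN h hA n (GCx.Pair.rH (Sym.PR_rstable h h.self hA hA.sub) n y) := by
  obtain ⟨c, hc, rfl⟩ := H.exists_mk y
  refine (H.mk_eq_mk (x := Y.rev.r n (B.φ n c)) (y := B.swap.φ n (Y.rev.r n c))).mpr ?_
  refine T_le_Bc _ _ _ ?_
  have hR := (Sym.PR_rstable h h.self hA hA.sub).S
  refine sub_mem_Zr (hR n _ (B.isMor.mapS (mem_Zc.mp hc).1)).1
    (B.swap.isMor.mapS (hR n _ (mem_Zc.mp hc).1)).1 ?_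
  intro x hx
  exact cutK_comp hr.N_r hr.D_r c hx

/-- `θ e = (1 - e) θ`. -/
theorem θ_e (hr : B.RevC) (n : ℕ) (y : (P h hA).HH n) :
    GCx.Pair.rH (Sym.PR_rstable h h.self hA hA.sub) n (B.eN h hA n y) =
      GCx.Pair.rH (Sym.PR_rstable h h.self hA hA.sub) n y -
        B.eN h hA n (GCx.Pair.rH (Sym.PR_rstable h h.self hA hA.sub) n y) := by
  rw [B.θ_eN h hA hr, eq_sub_iff_add_eq, add_comm]
  exact B.eN_add h hA n _

end Good

end CutD

end Vale.Agent.P216.H467E
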