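import Vale.Agent.P216.H467E.FamD
import Vale.Agent.P216.H16E.PH
import Vale.Agent.P216.H941S.Fix4

/-!
# The operators of a family of cut data (P216, Theorem C, block E1)

For `B : FamD S p a ε` and `a - ε ≤ s ≤ t ≤ a + ε`:
* `B.eN`, `B.eR` : the operators on `H (X t, X s)` and on `F (X t, X s)`;
* `B.opH`, `B.opF` : the natural operators `H16E.Op`;
* `B.e_π`, `B.θ_e`;
* `exists_indep` : the operator `eN` does not depend on the family;
* `exists_psi` : compatibility with `ψ : X (t / 2) → Fix (X t)`.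
-/

open Set Topology

namespace Vale.Agent.P216.H467E

open AS DV H16E

namespace FamD

section

variable {Λ : Type} [PseudoMetricSpace Λ] {S : GSys Λ} {p : ℕ} {a ε : ℝ} (B : FamD S p a ε)
  (k : Type) [Field k] (hp : 0 < p) {s t : ℝ}

/-- the operator on `H (X t, X s)` -/
noncomputable def eN (h : s ≤ t) (hs : a - ε ≤ s) (ht : t ≤ a + ε) (n : ℕ) :
    (S.Q k p hp h).HH n →ₗ[k] (S.Q k p hp h).HH n :=
  (B.cut k hp h hs ht).eN (S.good k p hp t) (S.goodSub k p hp h) n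

/-- the operator on `F (X t, X s)` -/
noncomputable def eR {C : Circ (S.sym k p hp).gcx} (b : ℕ → k)
    (hb : ∀ n x, C.A n x = sumK (S.sym k p hp) b n x) (h : s ≤ t) (hs : a - ε ≤ s)
    (ht : t ≤ a + ε) (hP : C.PSt (S.Q k p hp h)) (n : ℕ) : hP.F n →ₗ[k] hP.F n :=
  (B.cut k hp h hs ht).eR (S.good k p hp t) (S.goodSub k p hp h) hP b hb n

theorem eN_mk (h : s ≤ t) (hs : a - ε ≤ s) (ht : t ≤ a + ε) {n : ℕ} {c : (ASK Λ k).K n}
    (hc : c ∈ Zc (S.Q k p hp h).S (S.Q k p hp h).T n) :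
    ∃ hc', B.eN k hp h hs ht n (H.mk c hc) = H.mk (cutK k B.N₁ (B.D 1) n c) hc' := ⟨_, rfl⟩

theorem e_π {C : Circ (S.sym k p hp).gcx} (b : ℕ → k)
    (hb : ∀ n x, C.A n x = sumK (S.sym k p hp) b n x) (h : s ≤ t) (hs : a - ε ≤ s)
    (ht : t ≤ a + ε) (hP : C.PSt (S.Q k p hp h)) (n : ℕ) (x : hP.F n) :
    B.eN k hp h hs ht n (hP.πF n x) = hP.πF n (B.eR k hp b hb h hs ht hP n x) :=
  (B.cut k hp h hs ht).e_π (S.good k p hp t) (S.goodSub k p hp h) hP b hb n x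

theorem θ_e (h : s ≤ t) (hs : a - ε ≤ s) (ht : t ≤ a + ε) (n : ℕ)
    (x : (S.Q k p hp h).HH n) :
    GCx.Pair.rH (S.Q_rstable k p hp h) n (B.eN k hp h hs ht n x) =
      GCx.Pair.rH (S.Q_rstable k p hp h) n x -
        B.eN k hp h hs ht n (GCx.Pair.rH (S.Q_rstable k p hp h) n x) :=
  (B.cut k hp h hs ht).θ_e (S.good k p hp t) (S.goodSub k p hp h) (B.cut_revC k hp h hs ht) n x

/-- the natural operator on the theory `H (X t, X s)` -/
noncomputable def opH (n : ℕ) : Op (thH S k p hp n) a ε where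
  e h h1 h2 := B.eN k hp h h1 h2 n
  nat _ _ _ _ _ _ x := by
    obtain ⟨c, hc, rfl⟩ := H.exists_mk x
    rfl

theorem eR_coe {C : Circ (S.sym k p hp).gcx} (b : ℕ → k)
    (hb : ∀ n x, C.A n x = sumK (S.sym k p hp) b n x) (h : s ≤ t) (hs : a - ε ≤ s)
    (ht : t ≤ a + ε) (hP : C.PSt (S.Q k p hp h)) (n : ℕ) (x : hP.F n) :
    (B.eR k hp b hb h hs ht hP n x : (S.Q k p hp h).FF (n + 1)) =
      (B.cut k hp h hs ht).eFF (S.good k p hp t) (S.goodSub k p hp h) (n + 1) x.1 := rfl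

theorem eR_resF {C : Circ (S.sym k p hp).gcx} (b : ℕ → k)
    (hb : ∀ n x, C.A n x = sumK (S.sym k p hp) b n x) {s' t' : ℝ} (h : s ≤ t) (h' : s' ≤ t')
    (hs : s' ≤ s) (ht : t' ≤ t) (h1 : a - ε ≤ s') (h2 : t ≤ a + ε) (hP : C.PSt (S.Q k p hp h))
    (hP' : C.PSt (S.Q k p hp h')) (n : ℕ) (x : hP.F n) :
    Circ.PSt.resF hP hP' (S.Q_leS k p hp h h' hs ht) (S.Q_leT k p hp h h' ht) n
        (B.eR k hp b hb h (h1.trans hs) h2 hP n x) =
      B.eR k hp b hb h' h1 (ht.trans h2) hP' n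
        (Circ.PSt.resF hP hP' (S.Q_leS k p hp h h' hs ht) (S.Q_leT k p hp h h' ht) n x) := by
  refine Subtype.ext ?_
  rw [Circ.PSt.resF_coe, eR_coe, eR_coe, Circ.PSt.resF_coe]
  obtain ⟨c, hc, h3⟩ := H.exists_mk x.1
  rw [← h3]
  rfl

/-- the natural operator on the theory `F (X t, X s)` -/
noncomputable def opF {C : Circ (S.sym k p hp).gcx} (b : ℕ → k)
    (hb : ∀ n x, C.A n x = sumK (S.sym k p hp) b n x)
    (hP : ∀ {s t : ℝ} (h : s ≤ t), C.PSt (S.Q k p hp h)) (n : ℕ) :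
    Op (thF S k p hp hP n) a ε where
  e h h1 h2 := B.eR k hp b hb h h1 h2 (hP h) n
  nat h h' hs ht h1 h2 x := B.eR_resF k hp b hb h h' hs ht h1 h2 (hP h) (hP h') n x

end

end FamD

end Vale.Agent.P216.H467E
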