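import Vale.Agent.P216.H467E.FamOp

/-!
# Compatibility of the cut operators with `ψ` (P216, Theorem C, block E1)

* `FamD.eN_eq_of_small` : independence of the family;
* `exists_indep` : two families at the same level define the same operator on all small pairs;
* `exists_psi` : compatibility with `ψ : X (t / 2) → Fix (X t)`, for families at `a` and `a / 2`.
-/

open Set Topology

namespace Vale.Agent.P216.H467E

open AS DV H16E GSys.Two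

section Indep

variable {Λ : Type} [PseudoMetricSpace Λ] {S : GSys Λ} {p : ℕ} {a ε ε' : ℝ}

/-- The family `B'` is small with respect to `B`. -/
structure FamD.Small (B : FamD S p a ε) (B' : FamD S p a ε') : Prop where
  h₁ : ∀ x ∈ S.X (a + ε'), x ∈ B'.N₁ → B'.D 1 x ∈ B.O₁
  h₂ : ∀ x ∈ S.X (a + ε'), x ∈ B'.N₂ → B'.D 1 x ∈ B.O₂

theorem FamD.eN_eq_of_small {B : FamD S p a ε} {B' : FamD S p a ε'} (hB : B.Small B') (k : Type)
    [Field k] (hp : 0 < p) {s t : ℝ} (h : s ≤ t) (hs : a - ε ≤ s) (ht : t ≤ a + ε)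
    (hs' : a - ε' ≤ s) (ht' : t ≤ a + ε') (n : ℕ) (x : (S.Q k p hp h).HH n) :
    B'.eN k hp h hs' ht' n x = B.eN k hp h hs ht n x := by
  have h1 : (1 : ℝ) ∈ Icc (0 : ℝ) 1 := ⟨zero_le_one, le_rfl⟩
  refine (B'.cut k hp h hs' ht').eN_eq (S.good k p hp t) (S.goodSub k p hp h)
    (B.cut k hp h hs ht) (fun y hy hyN hy2 => ?_) (fun y hy hyN hy1 => ?_) n x
  · have h2 : B'.D 1 y ∈ S.X t := B'.D_mem 1 h1 t ht' hy
    have h3 := B.sub₁ _ (S.mono _ _ ht h2) (hB.h₁ y (S.mono _ _ ht' hy) hyN)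
    exact B.disj _ (S.mono _ _ ht h2) h3 hy2
  · have h2 : B'.D 1 y ∈ S.X t := B'.D_mem 1 h1 t ht' hy
    have h3 := B.sub₂ _ (S.mono _ _ ht h2) (hB.h₂ y (S.mono _ _ ht' hy) hyN)
    exact B.disj _ (S.mono _ _ ht h2) hy1 h3

end Indep

section Main

variable {Λ : Type} [MetricSpace Λ] {S : GSys Λ} (W : S.Two)

include W in
/-- **Independence** of the family. -/
theorem exists_indep {a ε ε' : ℝ} (ha : 0 < a) (B : FamD S 4 a ε) (B' : FamD S 4 a ε') :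
    ∃ η > 0, ∀ (s t : ℝ) (h : s ≤ t), a - η ≤ s → t ≤ a + η → ∀ (hs : a - ε ≤ s)
      (ht : t ≤ a + ε) (hs' : a - ε' ≤ s) (ht' : t ≤ a + ε') (k : Type) [Field k] (n : ℕ)
      (x : (S.Q k 4 (by norm_num) h).HH n),
      B'.eN k (by norm_num) h hs' ht' n x = B.eN k (by norm_num) h hs ht n x := by
  obtain ⟨η, hη, -, C, h1, h2⟩ := exists_fam W ha (B.open₁.inter B'.open₁)
    (B.open₂.inter B'.open₂) (subset_inter B.K₁ B'.K₁) (subset_inter B.K₂ B'.K₂)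
  refine ⟨η, hη, fun s t h hsη htη hs ht hs' ht' k _ n x => ?_⟩
  have e1 := FamD.eN_eq_of_small (B := B) (B' := C)
    ⟨fun y hy hyN => (h1 y hy hyN).2.1, fun y hy hyN => (h2 y hy hyN).2.1⟩ k (by norm_num) h hs ht
    hsη htη n x
  have e2 := FamD.eN_eq_of_small (B := B') (B' := C)
    ⟨fun y hy hyN => (h1 y hy hyN).2.2, fun y hy hyN => (h2 y hy hyN).2.2⟩ k (by norm_num) h hs'
    ht' hsη htη n x
  rw [← e1, e2]

/-- `IsCut` for the fixed sets, in the notation of `H941S`. -/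
theorem FamD.isCutF {a ε : ℝ} (B : FamD S 4 a ε) {s t : ℝ} (h : s ≤ t) (hs : a - ε ≤ s)
    (ht : t ≤ a + ε) :
    IsCut (fun _ : Unit => S.τ) (S.X t) (F2 S t) (F2 S s) B.D B.N₁ B.N₂ :=
  B.isCut_fix 2 h hs ht

/-- The cut operator on the cochains of the fixed sets. -/
theorem FamD.isMorF {a ε : ℝ} (B : FamD S 4 a ε) (k : Type) [Field k] {s t : ℝ} (h : s ≤ t)
    (hs : a - ε ≤ s) (ht : t ≤ a + ε) :
    IsMor (S4 S k t s) (A4 S k t) (S4 S k t s) (A4 S k t) (cutK k B.N₁ (B.D 1)) :=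
  (B.isCutF h hs ht).isMor

/-- **Compatibility with `ψ`.** -/
theorem exists_psi {a a' ε ε' : ℝ} (ha' : 0 < a') (haa : 2 * a' = a) (B : FamD S 4 a ε)
    (B' : FamD S 4 a' ε') :
    ∃ η > 0, ∀ (s t q r : ℝ) (h' : s ≤ t) (h : q ≤ r) (h0 : 0 ≤ q) (hq : 2 * q = s)
      (hr : 2 * r = t), a - η ≤ s → t ≤ a + η → ∀ (hs : a - ε ≤ s) (ht : t ≤ a + ε)
      (hs' : a' - ε' ≤ q) (ht' : r ≤ a' + ε') (k : Type) [Field k] (j : ℕ)
      (y : H (S4 S k t s) (A4 S k t) j),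
      W.fixMapR k hq hr h0 h j (Hmap (B.isMorF k h' hs ht) j y) =
        B'.eN k (by norm_num) h hs' ht' j (W.fixMapR k hq hr h0 h j y) := by
  have h1 : (1 : ℝ) ∈ Icc (0 : ℝ) 1 := ⟨zero_le_one, le_rfl⟩
  -- preimages under `ψ` of the open sets
  have hψ : ContinuousOn W.ψ (S.X (a' + 1)) := W.ψ_cont _ (by linarith)
  obtain ⟨V₁, hV₁, e₁⟩ := continuousOn_iff'.1 hψ B.O₁ B.open₁
  obtain ⟨V₂, hV₂, e₂⟩ := continuousOn_iff'.1 hψ B.O₂ B.open₂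
  have hK₁ : S.K1 a' ⊆ V₁ ∩ B'.O₁ := by
    intro x hx
    have hxX : x ∈ S.X a' := S.K1_sub a' ha' hx
    have h2 : W.ψ x ∈ S.K1 a := haa ▸ (W.ψ_K1 a' ha' x hxX).2 hx
    have h3 : x ∈ V₁ ∩ S.X (a' + 1) := by
      rw [← e₁]
      exact ⟨B.K₁ h2, S.mono _ _ (by linarith) hxX⟩
    exact ⟨h3.1, B'.K₁ hx⟩
  have hK₂ : S.K2 a' ⊆ V₂ ∩ B'.O₂ := by
    intro x hx
    have hxX : x ∈ S.X a' := S.K2_sub a' ha' hx
    have h2 : W.ψ x ∈ S.K2 a := haa ▸ (W.ψ_K2 a' ha' x hxX).2 hx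
    have h3 : x ∈ V₂ ∩ S.X (a' + 1) := by
      rw [← e₂]
      exact ⟨B.K₂ h2, S.mono _ _ (by linarith) hxX⟩
    exact ⟨h3.1, B'.K₂ hx⟩
  obtain ⟨η, hη, -, C, hC1, hC2⟩ := exists_fam W ha' (hV₁.inter B'.open₁) (hV₂.inter B'.open₂)
    hK₁ hK₂
  refine ⟨min η 1, lt_min hη one_pos,
    fun s t q r h' h h0 hq hr hsη htη hs ht hs' ht' k _ j y => ?_⟩
  have hη1 : min η 1 ≤ η := min_le_left _ _
  have hη2 : min η 1 ≤ 1 := min_le_right _ _
  have hη0 : 0 < min η 1 := lt_min hη one_pos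
  have hqC : a' - η ≤ q := by linarith
  have hrC : r ≤ a' + η := by linarith
  have hr1 : r ≤ a' + 1 := by linarith
  have hr0 : 0 ≤ r := h0.trans h
  -- the small family
  have e1 := FamD.eN_eq_of_small (B := B') (B' := C)
    ⟨fun y hy hyN => (hC1 y hy hyN).2.2, fun y hy hyN => (hC2 y hy hyN).2.2⟩ k
    (by norm_num : 0 < 4) h hs' ht' hqC hrC j (W.fixMapR k hq hr h0 h j y)
  refine Eq.trans ?_ e1
  have hmaps : ∀ x ∈ S.X r, C.D 1 x ∈ S.X r := fun x hx => C.D_mem 1 h1 r hrC hx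
  have hψX : ∀ x ∈ S.X r, W.ψ x ∈ S.X (a + ε) := fun x hx =>
    S.mono _ _ ht (F2_sub S t (W.mapsTo_F2 hr hr0 hx))
  refine IsCut.pull_eW (χ := fun _ : Unit => (-1 : k)) (B.isCutF h' hs ht) (C.isCut h hqC hrC)
    (W.isMapX hr hr0) (W.mapsTo_F2 hr hr0) (W.mapsTo_F2 hq h0) ?_ ?_ j y
  · intro x hx hxN hx2
    have h2 := (hC1 x (S.mono _ _ hrC hx) hxN).2.1
    have h3 : C.D 1 x ∈ W.ψ ⁻¹' B.O₁ ∩ S.X (a' + 1) := by
      rw [e₁]
      exact ⟨h2, S.mono _ _ hr1 (hmaps x hx)⟩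
    have h4 := hψX _ (hmaps x hx)
    exact B.disj _ h4 (B.sub₁ _ h4 h3.1) hx2
  · intro x hx hxN hx1
    have h2 := (hC2 x (S.mono _ _ hrC hx) hxN).2.1
    have h3 : C.D 1 x ∈ W.ψ ⁻¹' B.O₂ ∩ S.X (a' + 1) := by
      rw [e₂]
      exact ⟨h2, S.mono _ _ hr1 (hmaps x hx)⟩
    have h4 := hψX _ (hmaps x hx)
    exact B.disj _ h4 hx1 (B.sub₂ _ h4 h3.1)

/-- the operator `A` as a polynomial in `g` -/
theorem hb_of {k : Type} [Field k] {D : DV.Circ (S.sym k 4 (by norm_num)).gcx}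
    (hD : ∀ n x, D.A n x = ∑ i ∈ Finset.range 4, (i : k) • ((Y4 S k).gK n ^ i) x) (n : ℕ)
    (x : (ASK Λ k).K n) : D.A n x = sumK (S.sym k 4 (by norm_num)) (fun i => (i : k)) n x :=
  (hD n x).trans (sumK_apply _ _ n x).symm

/-- **The localisation commutes with the operators of the two families.** -/
theorem exists_loc {a a' ε ε' : ℝ} (ha' : 0 < a') (haa : 2 * a' = a) (B : FamD S 4 a ε)
    (B' : FamD S 4 a' ε') :
    ∃ η > 0, ∀ (s t q r : ℝ) (h' : s ≤ t) (h : q ≤ r) (h0 : 0 ≤ q) (hq : 2 * q = s)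
      (hr : 2 * r = t), a - η ≤ s → t ≤ a + η → ∀ (hs : a - ε ≤ s) (ht : t ≤ a + ε)
      (hs' : a' - ε' ≤ q) (ht' : r ≤ a' + ε') (k : Type) [Field k] (h2 : (2 : k) = 0)
      (D : DV.Circ (S.sym k 4 (by norm_num)).gcx)
      (hD : ∀ n x, D.A n x = ∑ i ∈ Finset.range 4, (i : k) • ((Y4 S k).gK n ^ i) x)
      (hS4 : D.St (S4 S k t s)) (hA : D.St (A4 S k t)) (hQ : D.PSt (S.Q k 4 (by norm_num) h'))
      (e j : ℕ) (x : hQ.F e),
      W.locR h2 hD hq hr h0 h h' hS4 hA hQ e j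
          (B.eR k (by norm_num) (fun i => (i : k)) (hb_of hD) h' hs ht hQ e x) =
        B'.eN k (by norm_num) h hs' ht' j (W.locR h2 hD hq hr h0 h h' hS4 hA hQ e j x) := by
  obtain ⟨η, hη, H⟩ := exists_psi W ha' haa B B'
  refine ⟨η, hη, fun s t q r h' h h0 hq hr hsη htη hs ht hs' ht' k _ h2 D hD hS4 hA hQ e j x => ?_⟩
  exact W.locR_mapF h2 hD hq hr h0 h h' hS4 hA hQ
    ((B.cut k (by norm_num) h' hs ht).isGMor (S.good k 4 (by norm_num) t)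
      (S.goodSub k 4 (by norm_num) h'))
    (B.isMorF k h' hs ht)
    (fun hx => (B.cut k (by norm_num) h' hs ht).comm_A (S.good k 4 (by norm_num) t)
      (S.goodSub k 4 (by norm_num) h') (fun i => (i : k)) (hb_of hD) hx) j
    (fun y => H s t q r h' h h0 hq hr hsη htη hs ht hs' ht' k j y) e x

end Main

end Vale.Agent.P216.H467E
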