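import Vale.Agent.P216.H16E.LocE
import Vale.Agent.P216.H467E.FamPsi

/-! The compatibility `H16E.Inter` of the cut operators of two families with the double iteration. -/

open Set

namespace Vale.Agent.P216.H16E

open AS AS.GCx.Pair DV DV.Circ H467E H941S

variable {Λ : Type} [MetricSpace Λ] {S : GSys Λ}

theorem exists_inter (W : S.Two) (k : Type) [Field k] (hm : S4.Ord k 4) {a ε a' ε' : ℝ}
    (B : FamD S 4 a ε) (B' : FamD S 4 a' ε') (ha' : 0 < a') (h : 2 * a' = a) :
    ∃ η > 0, Inter W k hm B B' η := by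
  obtain ⟨η, hη, H⟩ := exists_psi W ha' h B B'
  refine ⟨η, hη, ?_⟩
  intro s t q r h' h h0 hq hr h1 h2 hs ht hs' ht' j y
  exact H s t q r h' h h0 hq hr h1 h2 hs ht hs' ht' k j y

end Vale.Agent.P216.H16E
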